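import Vale.Agent.P091.Sqrt.Core

/-!
# P091: uniform bounds on the partial sums of a step function
-/

namespace Vale.Agent.P091.Sqrt

open Finset MeasureTheory

noncomputable section

lemma abs_dker_le (N : ℕ) (t : ℝ) : |dker N t| ≤ 2 * (N : ℝ) + 1 := by
  refine (abs_add_le _ _).trans ?_
  rw [abs_one, abs_mul, abs_two]
  have : |∑ k ∈ range N, Real.cos (2 * Real.pi * ((k : ℝ) + 1) * t)| ≤ (N : ℝ) :=
    (abs_sum_le_sum_abs _ _).trans
      ((sum_le_card_nsmul _ _ 1 fun k _ => Real.abs_cos_le_one _).trans (le_of_eq (by simp)))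
  linarith

lemma dker_neg (N : ℕ) (t : ℝ) : dker N (-t) = dker N t := by
  simp [dker]

lemma integral_dker_half (N : ℕ) {t : ℝ} (h0 : 0 ≤ t) (h1 : t ≤ 1 / 2) :
    |∫ s in (0 : ℝ)..t, dker N s| ≤ 2 := by
  have hint : ∀ a b : ℝ, IntervalIntegrable (dker N) volume a b := fun a b =>
    (continuous_dker N).intervalIntegrable a b
  obtain ⟨m, hm⟩ : ∃ m : ℝ, m = 2 * (N : ℝ) + 1 := ⟨_, rfl⟩
  have hm1 : 1 ≤ m := hm ▸ le_add_of_nonneg_left (by positivity)
  have hm0 : 0 < m := by linarith
  have small : ∀ s : ℝ, 0 ≤ s → s ≤ 1 / m → |∫ x in (0 : ℝ)..s, dker N x| ≤ 1 := by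
    intro s hs hs'
    have h := intervalIntegral.norm_integral_le_of_norm_le_const (C := m) (a := (0 : ℝ)) (b := s)
      (f := dker N) fun x _ => hm ▸ abs_dker_le N x
    rw [Real.norm_eq_abs, sub_zero, abs_of_nonneg hs] at h
    refine h.trans ?_
    rw [le_div_iff₀ hm0] at hs'
    linarith
  rcases le_total t (1 / m) with ht | ht
  · linarith [small t h0 ht]
  obtain ⟨a, ha⟩ : ∃ a : ℝ, a = 1 / m := ⟨_, rfl⟩
  rw [← ha] at ht
  have ha0 : 0 < a := ha ▸ by positivity
  rw [← intervalIntegral.integral_add_adjacent_intervals (hint 0 a) (hint a t)]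
  refine (abs_add_le _ _).trans ?_
  have hone := small a ha0.le ha.le
  obtain ⟨c, hc⟩ : ∃ c : ℝ, c = m * Real.pi := ⟨_, rfl⟩
  have hc0 : 0 < c := hc ▸ by positivity
  obtain ⟨g, hg⟩ : ∃ g : ℝ → ℝ, g = fun s => (Real.sin (Real.pi * s))⁻¹ := ⟨_, rfl⟩
  obtain ⟨g', hg'⟩ : ∃ g' : ℝ → ℝ,
      g' = fun s => -(Real.cos (Real.pi * s) * Real.pi) / Real.sin (Real.pi * s) ^ 2 := ⟨_, rfl⟩
  have hsin : ∀ s ∈ Set.Icc a t, 0 < Real.sin (Real.pi * s) := fun s hs => by
    have : 0 < s := ha0.trans_le hs.1
    exact Real.sin_pos_of_pos_of_lt_pi (by positivity) (by nlinarith [hs.2, Real.pi_pos])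
  have hgd : ∀ s ∈ Set.Icc a t, HasDerivAt g (g' s) s := fun s hs => by
    have h := ((Real.hasDerivAt_sin _).comp s ((hasDerivAt_id s).const_mul Real.pi)).inv
      (hsin s hs).ne'
    rw [hg, hg']
    exact h.congr_deriv (by simp)
  have hvd : ∀ s ∈ Set.Icc a t, HasDerivAt (fun s => -Real.cos (c * s) / c) (Real.sin (c * s)) s :=
    fun s _ => by
    have h := (((Real.hasDerivAt_cos _).comp s ((hasDerivAt_id s).const_mul c)).neg).div_const c
    exact h.congr_deriv (by simp; field_simp)
  have hg'c : ContinuousOn g' (Set.Icc a t) := by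
    rw [hg']
    refine ContinuousOn.div (by fun_prop) (by fun_prop) fun s hs => ?_
    exact pow_ne_zero _ (hsin s hs).ne'
  have hii : IntervalIntegrable g' volume a t :=
    ContinuousOn.intervalIntegrable (by rwa [Set.uIcc_of_le ht])
  have hparts := intervalIntegral.integral_mul_deriv_eq_deriv_mul
    (a := a) (b := t) (u := g) (v := fun s => -Real.cos (c * s) / c) (u' := g')
    (v' := fun s => Real.sin (c * s)) (by rwa [Set.uIcc_of_le ht]) (by rwa [Set.uIcc_of_le ht])
    hii (Continuous.intervalIntegrable (by fun_prop) _ _)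
  have heq : (∫ s in a..t, dker N s) = ∫ s in a..t, g s * Real.sin (c * s) := by
    refine intervalIntegral.integral_congr fun s hs => ?_
    rw [Set.uIcc_of_le ht] at hs
    have := sin_mul_dker N s
    simp only [hg, hc, hm]
    rw [← this, ← mul_assoc, inv_mul_cancel₀ (hsin s hs).ne', one_mul]
  have hgnn : ∀ s ∈ Set.Icc a t, 0 ≤ g s := fun s hs => by
    simp only [hg]; exact inv_nonneg.2 (hsin s hs).le
  have hbd : ∀ s, |-Real.cos (c * s) / c| ≤ 1 / c := fun s => by
    rw [abs_div, abs_neg, abs_of_pos hc0]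
    exact div_le_div_of_nonneg_right (Real.abs_cos_le_one _) hc0.le
  have hint' : |∫ s in a..t, g' s * (-Real.cos (c * s) / c)| ≤ (g a - g t) / c := by
    have hneg : ∀ s ∈ Set.Icc a t, g' s ≤ 0 := fun s hs => by
      simp only [hg']
      refine div_nonpos_of_nonpos_of_nonneg (neg_nonpos.2 ?_) (sq_nonneg _)
      refine mul_nonneg (Real.cos_nonneg_of_mem_Icc ⟨?_, ?_⟩) Real.pi_pos.le <;>
        nlinarith [hs.1, hs.2, Real.pi_pos]
    refine (intervalIntegral.abs_integral_le_integral_abs ht).trans ?_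
    refine (intervalIntegral.integral_mono_on (g := fun s => -g' s / c) ht ?_
      (hii.neg.div_const c) fun s hs => ?_).trans (le_of_eq ?_)
    · exact ((ContinuousOn.intervalIntegrable (by
        rw [Set.uIcc_of_le ht]; exact hg'c.mul (Continuous.continuousOn (by fun_prop))))).abs
    · rw [abs_mul, abs_of_nonpos (hneg s hs)]
      refine (mul_le_mul_of_nonneg_left (hbd s) (neg_nonneg.2 (hneg s hs))).trans (le_of_eq ?_)
      ring
    · rw [intervalIntegral.integral_div, intervalIntegral.integral_neg,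
        intervalIntegral.integral_eq_sub_of_hasDerivAt
          (fun s hs => hgd s (by rwa [Set.uIcc_of_le ht] at hs)) hii]
      ring
  have hga : g a ≤ m / 2 := by
    simp only [hg]
    have h := two_mul_min_le_abs_sin (d := a) (by rw [abs_of_pos ha0]; linarith)
    rw [abs_of_pos ha0, abs_of_pos (hsin a ⟨le_rfl, ht⟩), min_eq_left (by linarith)] at h
    refine (inv_anti₀ (by positivity) h).trans (le_of_eq ?_)
    rw [ha]; field_simp
  have hmid : |∫ s in a..t, g s * Real.sin (c * s)| ≤ 2 * g a / c := by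
    rw [hparts]
    have := hgnn t ⟨ht, le_rfl⟩
    have := hgnn a ⟨le_rfl, ht⟩
    calc _ ≤ |g t * (-Real.cos (c * t) / c)| + |g a * (-Real.cos (c * a) / c)|
          + |∫ s in a..t, g' s * (-Real.cos (c * s) / c)| := by
          refine (abs_sub _ _).trans (add_le_add (abs_sub _ _) le_rfl)
      _ ≤ g t * (1 / c) + g a * (1 / c) + (g a - g t) / c := by
          refine add_le_add (add_le_add ?_ ?_) hint' <;>
            rw [abs_mul, abs_of_nonneg (by assumption)] <;>
            exact mul_le_mul_of_nonneg_left (hbd _) (by assumption)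
      _ = _ := by ring
  have hlast : 2 * g a / c ≤ 1 := by
    rw [div_le_one hc0, hc]
    nlinarith [Real.pi_gt_three]
  rw [heq]
  linarith

lemma integral_dker_period (N : ℕ) : (∫ s in (0 : ℝ)..1, dker N s) = 1 := by
  have h : ∀ k : ℕ, (∫ s in (0 : ℝ)..1, Real.cos (2 * Real.pi * ((k : ℝ) + 1) * s)) = 0 := by
    intro k
    refine Eq.trans (intervalIntegral.integral_congr fun s _ => ?_)
      (integral_sin_cos (k + 1) (by omega)).2
    push_cast
    ring_nf
  simp only [dker]
  have hi : ∀ k ∈ range N, IntervalIntegrable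
      (fun s => Real.cos (2 * Real.pi * ((k : ℝ) + 1) * s)) volume (0 : ℝ) 1 :=
    fun k _ => Continuous.intervalIntegrable (by fun_prop) _ _
  rw [intervalIntegral.integral_add intervalIntegrable_const
      (Continuous.intervalIntegrable (by fun_prop) _ _), intervalIntegral.integral_const_mul,
    intervalIntegral.integral_finsetSum hi]
  simp [h]

/-- Short integrals of the kernel are bounded independently of the degree. -/
lemma integral_dker_le (N : ℕ) {a b : ℝ} (h : a ≤ b) (h1 : b ≤ a + 1) :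
    |∫ s in a..b, dker N s| ≤ 8 := by
  have hint : ∀ a b : ℝ, IntervalIntegrable (dker N) volume a b := fun a b =>
    (continuous_dker N).intervalIntegrable a b
  obtain ⟨P, hP⟩ : ∃ P : ℝ → ℝ, P = fun t => ∫ s in (0 : ℝ)..t, dker N s := ⟨_, rfl⟩
  have hshift : ∀ t : ℝ, ∀ k : ℤ, P (t + k) = P t + k := by
    intro t k
    simp only [hP]
    have h := (dker_periodic N).intervalIntegral_add_zsmul_eq k t
      fun t₁ t₂ => hint t₁ t₂
    rw [zsmul_one, (dker_periodic N).intervalIntegral_add_eq t 0, zero_add, integral_dker_period,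
      zsmul_one] at h
    rw [← intervalIntegral.integral_add_adjacent_intervals (hint 0 t) (hint t _), h]
  have hsmall : ∀ t : ℝ, |P (t - round t)| ≤ 2 := by
    intro t
    obtain ⟨u, hu⟩ : ∃ u, u = t - round t := ⟨_, rfl⟩
    have hu' : |u| ≤ 1 / 2 := hu ▸ abs_sub_round t
    rw [← hu]
    simp only [hP]
    rcases le_total 0 u with h0 | h0
    · exact integral_dker_half N h0 (abs_le.1 hu').2
    · have h := intervalIntegral.integral_comp_neg (a := (0 : ℝ)) (b := u) (dker N)
      simp only [dker_neg, neg_zero] at h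
      rw [h, intervalIntegral.integral_symm, abs_neg]
      exact integral_dker_half N (by linarith) (by linarith [(abs_le.1 hu').1])
  have hsplit : ∀ t : ℝ, |P t - t| ≤ 3 := by
    intro t
    have e := hshift (t - round t) (round t)
    rw [sub_add_cancel] at e
    rw [e, show P (t - round t) + (round t : ℝ) - t = P (t - round t) - (t - round t) by ring]
    refine (abs_sub _ _).trans ?_
    have := hsmall t
    have := abs_sub_round t
    linarith
  have he : (∫ s in a..b, dker N s) = P b - P a := by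
    simp only [hP]
    rw [intervalIntegral.integral_interval_sub_left (hint 0 b) (hint 0 a)]
  rw [he]
  have hb := abs_le.1 (hsplit b)
  have ha := abs_le.1 (hsplit a)
  exact abs_le.2 ⟨by linarith, by linarith⟩

variable {ι : Type*} [Fintype ι]

/-- The partial sums of a step function are bounded in the degree. -/
lemma abs_sst_le {h w : ℝ} (hh : 0 ≤ h) (hw : 0 ≤ w) (hw1 : w ≤ 1) (y : ι → ℝ) (N : ℕ) (s : ℝ) :
    |sst h w y N s| ≤ Fintype.card ι * (8 * h) := by
  unfold sst
  refine (abs_sum_le_sum_abs _ _).trans ((sum_le_card_nsmul _ _ (8 * h) fun a _ => ?_).trans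
    (le_of_eq (by simp)))
  rw [intervalIntegral.integral_comp_sub_left, abs_mul, abs_of_nonneg hh, mul_comm (8 : ℝ)]
  exact mul_le_mul_of_nonneg_left (integral_dker_le N (by linarith) (by linarith)) hh

/-- A partial sum is at most the degree times the mean. -/
lemma abs_sst_le_deg {h w : ℝ} (hh : 0 ≤ h) (hw : 0 ≤ w) (y : ι → ℝ) (N : ℕ) (s : ℝ) :
    |sst h w y N s| ≤ Fintype.card ι * (h * w) * (2 * (N : ℝ) + 1) := by
  unfold sst
  refine (abs_sum_le_sum_abs _ _).trans ((sum_le_card_nsmul _ _ (h * w * (2 * (N : ℝ) + 1))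
    fun a _ => ?_).trans (le_of_eq (by simp; ring)))
  rw [abs_mul, abs_of_nonneg hh, mul_assoc]
  refine mul_le_mul_of_nonneg_left ?_ hh
  have h' := intervalIntegral.norm_integral_le_of_norm_le_const (C := 2 * (N : ℝ) + 1)
    (a := y a) (b := y a + w) (f := fun x => dker N (s - x))
    fun x _ => abs_dker_le N _
  rw [add_sub_cancel_left, abs_of_nonneg hw, Real.norm_eq_abs] at h'
  exact h'.trans (le_of_eq (mul_comm _ _))

end

end Vale.Agent.P091.Sqrt
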