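import Vale.Agent.P091.Sqrt.Circle

/-!
# P091: the choice of sizes and amplitudes
-/

namespace Vale.Agent.P091.Sqrt

open Finset MeasureTheory

noncomputable section

/-- The height of the block of size `G`. -/
def ht (G : ℕ) : ℝ := (hgt G (bsz G) : ℝ)

lemma ht_pos (G : ℕ) : 0 < ht G := Nat.cast_pos.2 (hgt_pos G _)

lemma ht_ge (G : ℕ) : (G : ℝ) * (G + 1) ≤ ht G ∧ (1 : ℝ) ≤ ht G := by
  have h4 : G + 1 ≤ 4 ^ (G + 1) :=
    (Nat.lt_two_pow_self.trans_le le_rfl).le.trans (Nat.pow_le_pow_left (by norm_num) _)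
  have h2 : G ≤ 2 ^ G := Nat.lt_two_pow_self.le
  have h : G * (G + 1) ≤ hgt G (bsz G) := by
    unfold hgt
    calc G * (G + 1) ≤ 2 ^ G * 4 ^ (G + 1) := Nat.mul_le_mul h2 h4
      _ ≤ _ := Nat.le_mul_of_pos_right _ (by positivity)
  exact ⟨by unfold ht; exact_mod_cast h, by unfold ht; exact_mod_cast (hgt_pos G (bsz G))⟩

lemma log_ht_le {G : ℕ} (hG : 1 ≤ G) : Real.log (ht G) ≤ 70000 * (G : ℝ) ^ 2 := by
  have h : hgt G (bsz G) ≤ 2 ^ (70000 * G ^ 2) := by
    unfold hgt bsz
    have h1 : 4 + G ≤ 2 ^ (4 + G) := Nat.lt_two_pow_self.le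
    calc 2 ^ G * 4 ^ (G + 1) * ((4 + G) * 2 ^ (2 * (32768 * G) * G))
        ≤ 2 ^ G * 4 ^ (G + 1) * (2 ^ (4 + G) * 2 ^ (2 * (32768 * G) * G)) := by gcongr
      _ = 2 ^ (G + 2 * (G + 1) + (4 + G + 2 * (32768 * G) * G)) := by
          rw [show (4 : ℕ) ^ (G + 1) = 2 ^ (2 * (G + 1)) by rw [pow_mul]; norm_num, ← pow_add,
            ← pow_add, ← pow_add]
      _ ≤ _ := Nat.pow_le_pow_right (by norm_num) (by nlinarith)
  refine (Real.log_le_log (ht_pos G) (Nat.cast_le.2 h)).trans ?_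
  push_cast
  rw [Real.log_pow]
  push_cast
  refine mul_le_of_le_one_right (by positivity) ?_
  linarith [Real.log_two_lt_d9]

/-- The running totals: bound, height and weight of the blocks chosen so far. -/
structure Tot where
  /-- Bound of all partial sums of the earlier blocks. -/
  P : ℝ
  /-- Total height of the earlier blocks. -/
  Q : ℝ
  /-- Weight for the later blocks. -/
  L : ℝ

/-- The target at stage `k`. -/
def tgt (k : ℕ) (s : Tot) : ℝ := 1000 * (2 * max s.P 0 + k + 4)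

/-- The size at stage `k`, given the thresholds of the gauge. -/
def size (U : ℝ → ℝ) (k : ℕ) (s : Tot) : ℕ :=
  120000 + ⌈max (U (1 / (2 ^ k * 600 * tgt k s))) 0 + max s.Q 0
    + tgt k s * (max s.L 0 + 1) * 2 ^ (k + 1) + 2 * tgt k s⌉₊

/-- The amplitude at stage `k`. -/
def coef (U : ℝ → ℝ) (k : ℕ) (s : Tot) : ℝ := tgt k s / size U k s

/-- The totals after `k` stages. -/
def tots (U : ℝ → ℝ) : ℕ → Tot
  | 0 => ⟨0, 0, 0⟩
  | k + 1 => ⟨(tots U k).P + coef U k (tots U k) * (2 ^ size U k (tots U k) * (8 * ht (size U k (tots U k)))),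
      (tots U k).Q + coef U k (tots U k) * ht (size U k (tots U k)),
      (tots U k).L + (2 * ht (size U k (tots U k)) + 1)⟩

variable (U : ℝ → ℝ)

/-- The sizes. -/
def gs (k : ℕ) : ℕ := size U k (tots U k)

/-- The amplitudes. -/
def amps (k : ℕ) : ℝ := coef U k (tots U k)

lemma tgt_pos (k : ℕ) (s : Tot) : 4000 ≤ tgt k s := by
  unfold tgt
  have : 0 ≤ max s.P 0 := le_max_right _ _
  have : (0 : ℝ) ≤ k := Nat.cast_nonneg k
  linarith

lemma gs_ge (k : ℕ) : 120000 ≤ gs U k := Nat.le_add_right _ _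

lemma amps_pos (k : ℕ) : 0 < amps U k := by
  refine div_pos (lt_of_lt_of_le (by norm_num) (tgt_pos k _)) (Nat.cast_pos.2 ?_)
  exact lt_of_lt_of_le (by norm_num) (gs_ge U k)

lemma amps_mul (k : ℕ) : amps U k * gs U k = tgt k (tots U k) := by
  have : (gs U k : ℝ) ≠ 0 := Nat.cast_ne_zero.2 (by have := gs_ge U k; omega)
  exact div_mul_cancel₀ _ this

lemma tots_eq (k : ℕ) :
    (tots U k).P = ∑ i ∈ range k, amps U i * (2 ^ gs U i * (8 * ht (gs U i))) ∧
      (tots U k).Q = ∑ i ∈ range k, amps U i * ht (gs U i) ∧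
      (tots U k).L = ∑ i ∈ range k, (2 * ht (gs U i) + 1) := by
  induction k with
  | zero => simp [tots]
  | succ k ih =>
    obtain ⟨h1, h2, h3⟩ := ih
    simp only [tots, sum_range_succ, h1, h2, h3, amps, gs]
    exact ⟨trivial, trivial, trivial⟩

lemma size_spec (k : ℕ) :
    max (U (1 / (2 ^ k * 600 * tgt k (tots U k)))) 0 + (tots U k).Q
      + tgt k (tots U k) * (1 + (tots U k).L) * 2 ^ (k + 1) + 2 * tgt k (tots U k) ≤ gs U k := by
  have h := Nat.le_ceil (max (U (1 / (2 ^ k * 600 * tgt k (tots U k)))) 0 + max (tots U k).Q 0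
    + tgt k (tots U k) * (max (tots U k).L 0 + 1) * 2 ^ (k + 1) + 2 * tgt k (tots U k))
  have ht := tgt_pos k (tots U k)
  have hc : (gs U k : ℝ) = 120000 + (⌈max (U (1 / (2 ^ k * 600 * tgt k (tots U k)))) 0
      + max (tots U k).Q 0 + tgt k (tots U k) * (max (tots U k).L 0 + 1) * 2 ^ (k + 1)
      + 2 * tgt k (tots U k)⌉₊ : ℝ) := by rw [gs, size]; push_cast; rfl
  have hQ : (tots U k).Q ≤ max (tots U k).Q 0 := le_max_left _ _
  have hL : tgt k (tots U k) * (1 + (tots U k).L) * 2 ^ (k + 1) ≤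
      tgt k (tots U k) * (max (tots U k).L 0 + 1) * 2 ^ (k + 1) := by
    rw [add_comm (1 : ℝ)]
    exact mul_le_mul_of_nonneg_right (mul_le_mul_of_nonneg_left
      (add_le_add (le_max_left _ _) le_rfl) (by linarith)) (by positivity)
  linarith

lemma L_nonneg (k : ℕ) : 0 ≤ (tots U k).L := by
  rw [(tots_eq U k).2.2]
  exact sum_nonneg fun i _ => by linarith [ht_pos (gs U i)]

lemma amps_small (k : ℕ) : amps U k * (1 + (tots U k).L) ≤ (1 / 2) ^ (k + 1) := by
  have hs := size_spec U k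
  have hm := amps_mul U k
  have hG : (0 : ℝ) < gs U k := Nat.cast_pos.2 (lt_of_lt_of_le (by norm_num) (gs_ge U k))
  have hQ : 0 ≤ (tots U k).Q := by
    rw [(tots_eq U k).2.1]
    exact sum_nonneg fun i _ => mul_nonneg (amps_pos U i).le (ht_pos _).le
  have : 0 ≤ max (U (1 / (2 ^ k * 600 * tgt k (tots U k)))) 0 := le_max_right _ _
  have := tgt_pos k (tots U k)
  rw [div_pow, one_pow, le_div_iff₀ (by positivity)]
  refine le_of_mul_le_mul_right ?_ hG
  calc amps U k * (1 + (tots U k).L) * 2 ^ (k + 1) * gs U k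
      = tgt k (tots U k) * (1 + (tots U k).L) * 2 ^ (k + 1) := by rw [← hm]; ring
    _ ≤ 1 * gs U k := by linarith

lemma amps_le (k : ℕ) : amps U k ≤ (1 / 2) ^ (k + 1) :=
  (le_mul_of_one_le_right (amps_pos U k).le (le_add_of_nonneg_right (L_nonneg U k))).trans
    (amps_small U k)

lemma summable_amps : Summable (amps U) :=
  Summable.of_nonneg_of_le (fun k => (amps_pos U k).le) (amps_le U)
    ((summable_geometric_of_lt_one (by norm_num) (by norm_num)).comp_injective Nat.succ_injective)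

/-- The peak of a block dominates the earlier ones and passes the threshold. -/
lemma peak_spec (k : ℕ) :
    (tots U k).Q ≤ amps U k * ht (gs U k) ∧
      U (1 / (2 ^ k * 600 * tgt k (tots U k))) ≤ 2 * (amps U k * ht (gs U k)) ∧
      1 ≤ amps U k * ht (gs U k) := by
  have hs := size_spec U k
  have hm := amps_mul U k
  have ha := amps_pos U k
  have := tgt_pos k (tots U k)
  have hL := L_nonneg U k
  have h1 : (gs U k : ℝ) ≤ amps U k * ht (gs U k) := by
    calc (gs U k : ℝ) ≤ tgt k (tots U k) * gs U k := le_mul_of_one_le_left (Nat.cast_nonneg _) (by linarith)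
      _ ≤ (amps U k * gs U k) * (gs U k + 1) := by
          rw [hm]
          exact mul_le_mul_of_nonneg_left (by linarith) (by linarith)
      _ ≤ _ := by
          rw [mul_assoc]
          exact mul_le_mul_of_nonneg_left (ht_ge _).1 ha.le
  have hu : U (1 / (2 ^ k * 600 * tgt k (tots U k))) ≤
      max (U (1 / (2 ^ k * 600 * tgt k (tots U k)))) 0 := le_max_left _ _
  have hu0 : 0 ≤ max (U (1 / (2 ^ k * 600 * tgt k (tots U k)))) 0 := le_max_right _ _
  have hQ : 0 ≤ (tots U k).Q := by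
    rw [(tots_eq U k).2.1]
    exact sum_nonneg fun i _ => mul_nonneg (amps_pos U i).le (ht_pos _).le
  have : 0 ≤ tgt k (tots U k) * (1 + (tots U k).L) * 2 ^ (k + 1) := by positivity
  exact ⟨by linarith, by linarith, by linarith⟩

/-- The gauge costs little on each block. -/
lemma gauge_spec {ψ : ℝ → ℝ}
    (hψ : ∀ ε, 0 < ε → ∀ u, U ε ≤ u → ψ u ≤ ε * (u * Real.sqrt (Real.log u))) (k : ℕ) :
    ψ (2 * (amps U k * ht (gs U k))) / ht (gs U k) ≤ (1 / 2) ^ k := by
  obtain ⟨hQ, hU, h1⟩ := peak_spec U k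
  obtain ⟨u, hu⟩ : ∃ u, u = 2 * (amps U k * ht (gs U k)) := ⟨_, rfl⟩
  obtain ⟨G, hG⟩ : ∃ G : ℝ, G = (gs U k : ℝ) := ⟨_, rfl⟩
  have hG1 : 120000 ≤ G := hG ▸ (by exact_mod_cast gs_ge U k)
  have ha := amps_pos U k
  have hh := ht_pos (gs U k)
  have hm := amps_mul U k
  have ht4 := tgt_pos k (tots U k)
  rw [← hu] at hU ⊢
  have hlog : Real.log u ≤ (300 * G) ^ 2 := by
    have e : Real.log u = Real.log (2 * amps U k) + Real.log (ht (gs U k)) := by
      rw [hu, ← mul_assoc, Real.log_mul (by positivity) hh.ne']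
    have hl : Real.log (2 * amps U k) ≤ 2 * amps U k :=
      (Real.log_le_sub_one_of_pos (by positivity)).trans (by linarith)
    have ha1 : amps U k ≤ 1 := (amps_le U k).trans (pow_le_one₀ (by norm_num) (by norm_num))
    have := log_ht_le (show 1 ≤ gs U k by have := gs_ge U k; omega)
    rw [← hG] at this
    nlinarith
  have hsq : Real.sqrt (Real.log u) ≤ 300 * G := Real.sqrt_le_iff.2 ⟨by linarith, hlog⟩
  have hε : 0 < 1 / (2 ^ k * 600 * tgt k (tots U k)) := by
    have : 0 < tgt k (tots U k) := by linarith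
    positivity
  rw [div_le_iff₀ hh]
  refine (hψ _ hε u hU).trans ?_
  calc 1 / (2 ^ k * 600 * tgt k (tots U k)) * (u * Real.sqrt (Real.log u))
      ≤ 1 / (2 ^ k * 600 * tgt k (tots U k)) * (u * (300 * G)) :=
        mul_le_mul_of_nonneg_left
          (mul_le_mul_of_nonneg_left hsq (by rw [hu]; positivity)) hε.le
    _ = _ := by
        have hG0 : (0 : ℝ) < G := by linarith
        rw [hu, ← hm, ← hG, div_pow, one_pow]
        field_simp
        ring

/-- The part of the series beyond stage `k`, seen by the partial sums of stage `k`. -/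
lemma tail_spec {k i : ℕ} (hi : k < i) {N : ℕ} (hN : (N : ℝ) ≤ ht (gs U k)) :
    amps U i * (2 * (N : ℝ) + 1) ≤ (1 / 2) ^ (i + 1) := by
  refine le_trans (mul_le_mul_of_nonneg_left ?_ (amps_pos U i).le) (amps_small U i)
  rw [(tots_eq U i).2.2]
  have h := single_le_sum (f := fun j => 2 * ht (gs U j) + 1)
    (fun j _ => by linarith [ht_pos (gs U j)]) (mem_range.2 hi)
  linarith

/-- The earlier blocks are beaten. -/
lemma main_spec (k : ℕ) :
    (tots U k).P + k + 2 ≤ amps U k * ((gs U k : ℝ) / 1000) - (tots U k).P := by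
  rw [mul_div_assoc', amps_mul, tgt]
  linarith [le_max_left (tots U k).P 0]

end

end Vale.Agent.P091.Sqrt
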