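import Mathlib

/-!
# P091: symmetric partial sums of Fourier series
-/

namespace Vale.Agent.P091.Sqrt

instance twoPiFact : Fact (0 < 2 * Real.pi) := ⟨Real.two_pi_pos⟩

/-- The symmetric partial sum of order `N` of the Fourier series on the circle of length `2 π`. -/
noncomputable def partialSum (f : AddCircle (2 * Real.pi) → ℂ) (N : ℕ)
    (x : AddCircle (2 * Real.pi)) : ℂ :=
  ∑ n ∈ Finset.Icc (-(N : ℤ)) N, fourierCoeff f n * fourier n x

end Vale.Agent.P091.Sqrt
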