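import Vale.Agent.P091.Sqrt.Bounds
import Vale.Agent.P091.Sqrt.Series

/-!
# P091: blocks on the circle
-/

namespace Vale.Agent.P091.Sqrt

open Finset MeasureTheory

noncomputable section

/-- The position of a point in units of the period. -/
def unit (z : AddCircle (2 * Real.pi)) : ℝ :=
  (AddCircle.equivIco (2 * Real.pi) 0 z : ℝ) / (2 * Real.pi)

lemma unit_spec (z : AddCircle (2 * Real.pi)) :
    unit z ∈ Set.Ico (0 : ℝ) 1 ∧ ((2 * Real.pi * unit z : ℝ) : AddCircle (2 * Real.pi)) = z := by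
  have h := (AddCircle.equivIco (2 * Real.pi) 0 z).2
  simp only [Set.mem_Ico, zero_add] at h
  refine ⟨⟨div_nonneg h.1 Real.two_pi_pos.le, (div_lt_one Real.two_pi_pos).2 h.2⟩, ?_⟩
  rw [unit, mul_div_cancel₀ _ Real.two_pi_pos.ne']
  exact (AddCircle.equivIco (2 * Real.pi) 0).symm_apply_apply z

lemma unit_coe {v : ℝ} (hv : v ∈ Set.Ico (0 : ℝ) 1) :
    unit ((2 * Real.pi * v : ℝ) : AddCircle (2 * Real.pi)) = v := by
  have h : 2 * Real.pi * v ∈ Set.Ico (0 : ℝ) (0 + 2 * Real.pi) :=
    ⟨mul_nonneg Real.two_pi_pos.le hv.1, by rw [zero_add]; exact mul_lt_of_lt_one_right Real.two_pi_pos hv.2⟩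
  rw [unit, AddCircle.equivIco_coe_eq h, mul_div_cancel_left₀ _ Real.two_pi_pos.ne']

lemma measurable_unit : Measurable unit :=
  ((measurable_subtype_coe.comp (AddCircle.measurableEquivIco (2 * Real.pi) 0).measurable)).div_const _

/-- The mean over the circle as an integral over the unit interval. -/
lemma mean_eq {E : Type*} [NormedAddCommGroup E] [NormedSpace ℝ E]
    (F : AddCircle (2 * Real.pi) → E) :
    (∫ z, F z ∂AddCircle.haarAddCircle) = ∫ v in (0 : ℝ)..1, F ((2 * Real.pi * v : ℝ)) := by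
  rw [AddCircle.integral_haarAddCircle, ← AddCircle.intervalIntegral_preimage (2 * Real.pi) 0 F,
    intervalIntegral.integral_comp_mul_left (fun t : ℝ => F (t : AddCircle (2 * Real.pi)))
      Real.two_pi_pos.ne', mul_zero, mul_one, zero_add]

/-- The Dirichlet kernel on the circle. -/
def ker (N : ℕ) (z : AddCircle (2 * Real.pi)) : ℝ := dker N (unit z)

lemma ker_coe (N : ℕ) (v : ℝ) : ker N ((2 * Real.pi * v : ℝ) : AddCircle (2 * Real.pi)) = dker N v := by
  have e : ((2 * Real.pi * v : ℝ) : AddCircle (2 * Real.pi)) =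
      ((2 * Real.pi * Int.fract v : ℝ) : AddCircle (2 * Real.pi)) := by
    have h : 2 * Real.pi * v = 2 * Real.pi * Int.fract v + ⌊v⌋ • (2 * Real.pi) := by
      rw [zsmul_eq_mul, Int.fract]
      ring
    rw [h, AddCircle.coe_add, AddCircle.coe_zsmul, AddCircle.coe_period, zsmul_zero, add_zero]
  rw [ker, e, unit_coe ⟨Int.fract_nonneg v, Int.fract_lt_one v⟩]
  conv_rhs => rw [← Int.fract_add_floor v, ← mul_one (⌊v⌋ : ℝ)]
  exact ((dker_periodic N).int_mul ⌊v⌋ _).symm

lemma ker_eq (N : ℕ) (z : AddCircle (2 * Real.pi)) :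
    ((ker N z : ℝ) : ℂ) = ∑ n ∈ Icc (-(N : ℤ)) N, fourier n z := by
  obtain ⟨-, hz⟩ := unit_spec z
  obtain ⟨v, hv⟩ : ∃ v, v = unit z := ⟨_, rfl⟩
  rw [ker, ← hv]
  rw [← hv] at hz
  induction N with
  | zero => simp [dker]
  | succ N ih =>
    have hset : Icc (-((N + 1 : ℕ) : ℤ)) ((N + 1 : ℕ) : ℤ) =
        insert (-((N : ℤ) + 1)) (insert ((N : ℤ) + 1) (Icc (-(N : ℤ)) N)) := by
      ext n
      simp only [mem_insert, mem_Icc]
      push_cast
      omega
    rw [hset, sum_insert (by simp only [mem_insert, mem_Icc]; omega),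
      sum_insert (by simp only [mem_Icc]; omega), ← ih, ← add_assoc]
    have e : fourier (-((N : ℤ) + 1)) z + fourier ((N : ℤ) + 1) z =
        ((2 * Real.cos (2 * Real.pi * ((N : ℝ) + 1) * v) : ℝ) : ℂ) := by
      rw [← hz, fourier_coe_apply, fourier_coe_apply, Complex.ofReal_mul 2 (Real.cos _),
        Complex.ofReal_cos, Complex.ofReal_ofNat, Complex.two_cos]
      have hπ : (Real.pi : ℂ) ≠ 0 := Complex.ofReal_ne_zero.2 Real.pi_ne_zero
      rw [add_comm]
      congr 1 <;> congr 1 <;> push_cast <;> field_simp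
    rw [e]
    unfold dker
    rw [sum_range_succ]
    push_cast
    ring

lemma measurable_ker (N : ℕ) : Measurable (ker N) :=
  (continuous_dker N).measurable.comp measurable_unit

lemma partialSum_eq {F : AddCircle (2 * Real.pi) → ℝ}
    (hF : Integrable F AddCircle.haarAddCircle) (N : ℕ) (x : AddCircle (2 * Real.pi)) :
    partialSum (fun y => (F y : ℂ)) N x =
      ((∫ y, F y * ker N (x - y) ∂AddCircle.haarAddCircle : ℝ) : ℂ) := by
  rw [← integral_complex_ofReal]
  simp only [Complex.ofReal_mul]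
  have e : ∀ y, ((ker N (x - y) : ℝ) : ℂ) = ∑ n ∈ Icc (-(N : ℤ)) N, fourier (-n) y * fourier n x := by
    intro y
    rw [ker_eq]
    refine sum_congr rfl fun n _ => ?_
    simp only [fourier_apply]
    rw [sub_eq_add_neg, zsmul_add, AddCircle.toCircle_add, Circle.coe_mul, neg_zsmul, zsmul_neg,
      mul_comm]
  unfold partialSum fourierCoeff
  simp only [smul_eq_mul]
  have hi : ∀ n : ℤ, Integrable (fun y => (F y : ℂ) * (fourier (-n) y * fourier n x))
      AddCircle.haarAddCircle := fun n => by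
    refine hF.ofReal.mul_bdd (c := 1) ((by fun_prop : Continuous fun y => fourier (-n) y * fourier n x).aestronglyMeasurable) ?_
    exact Filter.Eventually.of_forall fun y => by simp [Circle.norm_coe]
  calc ∑ n ∈ Icc (-(N : ℤ)) N,
        (∫ y, fourier (-n) y * (F y : ℂ) ∂AddCircle.haarAddCircle) * fourier n x
      = ∑ n ∈ Icc (-(N : ℤ)) N,
        ∫ y, (F y : ℂ) * (fourier (-n) y * fourier n x) ∂AddCircle.haarAddCircle := by
        refine sum_congr rfl fun n _ => ?_
        rw [← integral_mul_const]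
        exact integral_congr_ae (Filter.Eventually.of_forall fun y => by ring)
    _ = _ := by
        rw [← integral_finsetSum _ fun n _ => hi n]
        refine integral_congr_ae (Filter.Eventually.of_forall fun y => ?_)
        simp only [← mul_sum]
        rw [← e]

variable {G : ℕ}

/-- The block on the circle. -/
def blk (H : Hash G (bsz G)) (z : AddCircle (2 * Real.pi)) : ℝ :=
  stp (hgt G (bsz G) : ℝ) (wid G (bsz G)) (yst H) (unit z)

/-- The support of the block. -/
def supp (H : Hash G (bsz G)) : Set (AddCircle (2 * Real.pi)) :=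
  ⋃ a, unit ⁻¹' Set.Ico (yst H a) (yst H a + wid G (bsz G))

lemma measurableSet_supp (H : Hash G (bsz G)) : MeasurableSet (supp H) :=
  MeasurableSet.iUnion fun _ => measurable_unit measurableSet_Ico

lemma yst_sep (hG : 4 ≤ G) (H : Hash G (bsz G)) (a : Fin (2 ^ G)) :
    ((a : ℕ) : ℝ) / 2 ^ G ≤ yst H a ∧
      yst H a + wid G (bsz G) ≤ (((a : ℕ) : ℝ) + 1) / 2 ^ G := by
  obtain ⟨h0, h1⟩ := fine_bounds H a
  obtain ⟨hb, -, -⟩ := four_pow_big hG
  have hn : (0 : ℝ) < 2 ^ G := by positivity
  have hQ : (0 : ℝ) < 4 ^ (G + 1) := by positivity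
  have hq : 0 ≤ fine H a / 4 ^ (G + 1) := by positivity
  refine ⟨?_, ?_⟩
  · unfold yst
    exact div_le_div_of_nonneg_right (le_add_of_nonneg_right hq) hn.le
  · have hh : (2 : ℝ) ≤ hgt G (bsz G) := by
      have : 2 ≤ hgt G (bsz G) := by
        unfold hgt
        calc 2 = 2 ^ 1 * 1 * (1 * 1) := rfl
          _ ≤ _ := by gcongr <;> first | omega | exact Nat.one_le_two_pow | exact Nat.one_le_pow _ _ (by norm_num)
      exact_mod_cast this
    have hf : fine H a / 4 ^ (G + 1) ≤ 1 / 2 := by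
      rw [div_le_iff₀ hQ]; linarith
    have hw : wid G (bsz G) ≤ 1 / 2 / 2 ^ G := by
      rw [wid, div_div]
      exact div_le_div_of_nonneg_left zero_le_one (by positivity) (by nlinarith)
    unfold yst
    refine (add_le_add le_rfl hw).trans ?_
    rw [← add_div]
    exact div_le_div_of_nonneg_right (by linarith) hn.le

lemma blk_bounds (hG : 4 ≤ G) (H : Hash G (bsz G)) (z : AddCircle (2 * Real.pi)) :
    0 ≤ blk H z ∧ blk H z ≤ (supp H).indicator (fun _ => (hgt G (bsz G) : ℝ)) z := by
  have hh : (0 : ℝ) ≤ hgt G (bsz G) := Nat.cast_nonneg _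
  unfold blk stp
  refine ⟨sum_nonneg fun a _ => Set.indicator_nonneg (fun _ _ => hh) _, ?_⟩
  by_cases h : z ∈ supp H
  · rw [Set.indicator_of_mem h]
    obtain ⟨a, ha⟩ := Set.mem_iUnion.1 h
    rw [sum_eq_single a (fun c _ hc => ?_) (fun hc => absurd (mem_univ a) hc)]
    · exact Set.indicator_apply_le' (fun _ => le_rfl) (fun _ => hh)
    refine Set.indicator_of_notMem (fun hc' => hc ?_) _
    obtain ⟨s1, s2⟩ := yst_sep hG H a
    obtain ⟨t1, t2⟩ := yst_sep hG H c
    simp only [Set.mem_preimage, Set.mem_Ico] at ha hc'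
    have hn : (0 : ℝ) < 2 ^ G := by positivity
    have e1 : ((a : ℕ) : ℝ) / 2 ^ G < (((c : ℕ) : ℝ) + 1) / 2 ^ G := by linarith
    have e2 : ((c : ℕ) : ℝ) / 2 ^ G < (((a : ℕ) : ℝ) + 1) / 2 ^ G := by linarith
    rw [div_lt_div_iff_of_pos_right hn] at e1 e2
    norm_cast at e1 e2
    exact Fin.ext (by omega)
  · rw [Set.indicator_of_notMem h]
    refine le_of_eq (sum_eq_zero fun a _ => Set.indicator_of_notMem (fun ha => h ?_) _)
    exact Set.mem_iUnion.2 ⟨a, ha⟩

lemma measurable_blk (H : Hash G (bsz G)) : Measurable (blk H) := by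
  refine (Finset.measurable_sum _ fun a _ => measurable_const.indicator measurableSet_Ico).comp
    measurable_unit

lemma integral_indicator_unit {a b : ℝ} (ha : 0 ≤ a) (hab : a ≤ b) (hb : b ≤ 1)
    (g : ℝ → ℝ) (hg : Continuous g) (c : ℝ) :
    (∫ v in (0 : ℝ)..1, (Set.Ico a b).indicator (fun _ => c) v * g v) = c * ∫ v in a..b, g v := by
  have e : ∀ v, (Set.Ico a b).indicator (fun _ => c) v * g v =
      (Set.Ico a b).indicator (fun v => c * g v) v := fun v => by
    by_cases h : v ∈ Set.Ico a b <;> simp [h]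
  simp only [e]
  rw [intervalIntegral.integral_of_le zero_le_one, ← integral_Icc_eq_integral_Ioc,
    setIntegral_indicator measurableSet_Ico, Set.inter_eq_right.2 (show Set.Ico a b ⊆ Set.Icc 0 1 from
      fun v hv => ⟨ha.trans hv.1, hv.2.le.trans hb⟩), integral_Ico_eq_integral_Ioc, ← intervalIntegral.integral_of_le hab,
    intervalIntegral.integral_const_mul]

lemma intervalIntegrable_step (c a b : ℝ) :
    IntervalIntegrable ((Set.Ico a b).indicator fun _ => c) volume (0 : ℝ) 1 :=
  ⟨(integrableOn_const (by simp)).indicator measurableSet_Ico,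
    (integrableOn_const (by simp)).indicator measurableSet_Ico⟩

lemma integrable_blk (hG : 4 ≤ G) (H : Hash G (bsz G)) :
    Integrable (blk H) AddCircle.haarAddCircle := by
  refine Integrable.of_bound (measurable_blk H).aestronglyMeasurable (hgt G (bsz G) : ℝ)
    (Filter.Eventually.of_forall fun z => ?_)
  rw [Real.norm_eq_abs, abs_of_nonneg (blk_bounds hG H z).1]
  exact (blk_bounds hG H z).2.trans
    (Set.indicator_apply_le' (fun _ => le_rfl) (fun _ => Nat.cast_nonneg _))

lemma mean_blk (hG : 4 ≤ G) (H : Hash G (bsz G)) :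
    ∫ z, blk H z ∂AddCircle.haarAddCircle = 1 := by
  rw [mean_eq, intervalIntegral.integral_congr_uIoo (g := fun v =>
    ∑ a, (Set.Ico (yst H a) (yst H a + wid G (bsz G))).indicator
      (fun _ => (hgt G (bsz G) : ℝ)) v * 1) fun v hv => ?_]
  · rw [intervalIntegral.integral_finsetSum fun a _ => by
      simpa only [mul_one] using intervalIntegrable_step _ _ _]
    have hone : ∀ a : Fin (2 ^ G), (∫ v in (0 : ℝ)..1,
        (Set.Ico (yst H a) (yst H a + wid G (bsz G))).indicator
          (fun _ => (hgt G (bsz G) : ℝ)) v * 1) = 1 / 2 ^ G := fun a => by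
      obtain ⟨h1, h2⟩ := yst_sep hG H a
      have hn : (0 : ℝ) < 2 ^ G := by positivity
      have ha : ((a : ℕ) : ℝ) + 1 ≤ 2 ^ G := by exact_mod_cast a.2
      rw [integral_indicator_unit ((div_nonneg (Nat.cast_nonneg _) hn.le).trans h1)
        (le_add_of_nonneg_right (wid_pos G (bsz G)).le) (h2.trans ((div_le_one hn).2 ha))
        _ continuous_const]
      have : (hgt G (bsz G) : ℝ) ≠ 0 := Nat.cast_ne_zero.2 (hgt_pos G _).ne'
      simp only [intervalIntegral.integral_const, add_sub_cancel_left, smul_eq_mul, mul_one, wid]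
      field_simp
    simp only [mul_one] at hone ⊢
    simp [hone]
  · rw [Set.uIoo_of_le zero_le_one] at hv
    simp only [blk, stp, unit_coe ⟨hv.1.le, hv.2⟩, mul_one]

/-- The partial sums of a translated block. -/
lemma sum_blk (hG : 4 ≤ G) (H : Hash G (bsz G)) (N : ℕ) (θ x : AddCircle (2 * Real.pi)) :
    ∫ y, blk H (y - θ) * ker N (x - y) ∂AddCircle.haarAddCircle = bsum H N (unit (x - θ)) := by
  rw [← integral_add_right_eq_self _ θ]
  obtain ⟨-, hz⟩ := unit_spec (x - θ)
  obtain ⟨s, hs⟩ : ∃ s, s = unit (x - θ) := ⟨_, rfl⟩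
  rw [← hs] at hz ⊢
  simp only [add_sub_cancel_right]
  rw [mean_eq, intervalIntegral.integral_congr_uIoo (g := fun v =>
    ∑ a, (Set.Ico (yst H a) (yst H a + wid G (bsz G))).indicator
      (fun _ => (hgt G (bsz G) : ℝ)) v * dker N (s - v)) fun v hv => ?_]
  · have hc : Continuous fun v => dker N (s - v) :=
      (continuous_dker N).comp (continuous_const.sub continuous_id)
    rw [intervalIntegral.integral_finsetSum fun a _ =>
      (intervalIntegrable_step _ _ _).mul_continuousOn hc.continuousOn]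
    unfold bsum sst
    refine sum_congr rfl fun a _ => ?_
    obtain ⟨h1, h2⟩ := yst_sep hG H a
    have hn : (0 : ℝ) < 2 ^ G := by positivity
    have ha : ((a : ℕ) : ℝ) + 1 ≤ 2 ^ G := by exact_mod_cast a.2
    rw [integral_indicator_unit ((div_nonneg (Nat.cast_nonneg _) hn.le).trans h1)
      (le_add_of_nonneg_right (wid_pos G (bsz G)).le) (h2.trans ((div_le_one hn).2 ha)) _ hc]
  · rw [Set.uIoo_of_le zero_le_one] at hv
    have e : x - (((2 * Real.pi * v : ℝ) : AddCircle (2 * Real.pi)) + θ) =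
        ((2 * Real.pi * (s - v) : ℝ) : AddCircle (2 * Real.pi)) := by
      rw [mul_sub, AddCircle.coe_sub, hz]
      abel
    simp only [e, ker_coe, blk, stp, unit_coe ⟨hv.1.le, hv.2⟩, sum_mul]

/-- The measure of the support. -/
lemma measure_supp (hG : 4 ≤ G) (H : Hash G (bsz G)) :
    AddCircle.haarAddCircle.real (supp H) ≤ 1 / (hgt G (bsz G) : ℝ) := by
  have hh : (0 : ℝ) < hgt G (bsz G) := Nat.cast_pos.2 (hgt_pos G _)
  refine (le_div_iff₀ hh).2 ?_
  rw [← mean_blk hG H]
  refine (le_of_eq ?_).trans (integral_mono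
    ((integrable_const ((hgt G (bsz G) : ℝ))).indicator (measurableSet_supp H))
    (integrable_blk hG H) fun z => ?_)
  · rw [integral_indicator_const _ (measurableSet_supp H), smul_eq_mul]
  · by_cases h : z ∈ supp H
    · rw [Set.indicator_of_mem h]
      obtain ⟨a, ha⟩ := Set.mem_iUnion.1 h
      refine le_trans (le_of_eq ?_) (single_le_sum
        (fun c _ => Set.indicator_nonneg (fun _ _ => hh.le) _) (mem_univ a))
      rw [Set.indicator_of_mem (Set.mem_preimage.1 ha)]
    · rw [Set.indicator_of_notMem h]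
      exact (blk_bounds hG H z).1

/-- The circle copy of the set where a block is large. -/
def good (H : Hash G (bsz G)) : Set (AddCircle (2 * Real.pi)) :=
  {z | ∃ N ≤ hgt G (bsz G), (G : ℝ) / 1000 ≤ |bsum H N (unit z)|}

lemma measurableSet_good (H : Hash G (bsz G)) : MeasurableSet (good H) := by
  have : good H = ⋃ N ∈ Set.Iic (hgt G (bsz G)),
      {z | (G : ℝ) / 1000 ≤ |bsum H N (unit z)|} := by
    ext z; simp [good]
  rw [this]
  exact MeasurableSet.biUnion (Set.to_countable _) fun N _ => measurableSet_le measurable_const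
    ((continuous_sst _ _ _ N).abs.measurable.comp measurable_unit)

lemma measure_good (hG : 120000 ≤ G) :
    ∃ H : Hash G (bsz G), (1 : ℝ) / 6000 ≤ AddCircle.haarAddCircle.real (good H) := by
  obtain ⟨H, hH⟩ := core hG
  refine ⟨H, hH.trans (le_of_eq ?_)⟩
  obtain ⟨E, hE⟩ : ∃ E : Set ℝ,
      E = {s | ∃ N ≤ hgt G (bsz G), (G : ℝ) / 1000 ≤ |bsum H N s|} := ⟨_, rfl⟩
  have hEm : MeasurableSet E := by
    have : E = ⋃ N ∈ Set.Iic (hgt G (bsz G)), {s | (G : ℝ) / 1000 ≤ |bsum H N s|} := by
      ext s; simp [hE]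
    rw [this]
    exact MeasurableSet.biUnion (Set.to_countable _) fun N _ =>
      measurableSet_le measurable_const (continuous_sst _ _ _ N).abs.measurable
  have hm : MeasurableSet (Set.Icc (0 : ℝ) 1 ∩ E) := measurableSet_Icc.inter hEm
  rw [show {s ∈ Set.Icc (0 : ℝ) 1 | ∃ N ≤ hgt G (bsz G), (G : ℝ) / 1000 ≤ |bsum H N s|} =
    Set.Icc (0 : ℝ) 1 ∩ E by rw [hE]; rfl]
  have h2 := integral_indicator_const (μ := (AddCircle.haarAddCircle :
    Measure (AddCircle (2 * Real.pi)))) (1 : ℝ) (measurableSet_good H)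
  rw [smul_eq_mul, mul_one] at h2
  rw [← h2, mean_eq, intervalIntegral.integral_congr_uIoo
    (g := fun v => E.indicator (fun _ => (1 : ℝ)) v) fun v hv => ?_]
  · rw [intervalIntegral.integral_of_le zero_le_one, ← integral_Icc_eq_integral_Ioc,
      setIntegral_indicator hEm, setIntegral_const, smul_eq_mul, mul_one]
  · rw [Set.uIoo_of_le zero_le_one] at hv
    have hg : good H = unit ⁻¹' E := by rw [hE]; rfl
    have hu := unit_coe ⟨hv.1.le, hv.2⟩
    by_cases h : v ∈ E
    · simp only [hg, Set.indicator_of_mem h]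
      exact Set.indicator_of_mem (Set.mem_preimage.2 (by rwa [hu])) _
    · simp only [hg, Set.indicator_of_notMem h]
      exact Set.indicator_of_notMem (fun h' => h (by rwa [Set.mem_preimage, hu] at h')) _

end

end Vale.Agent.P091.Sqrt
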