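import Vale.Agent.P091.Sqrt.Kernel

/-!
# P091: one block with large partial sums on a set of fixed measure
-/

namespace Vale.Agent.P091.Sqrt

open Finset MeasureTheory

noncomputable section

variable {G B : ℕ}

/-- The number of buckets. -/
def bsz (G : ℕ) : ℕ := 32768 * G

/-- The amplitude of the sine part of the harmonic. -/
def amp (H : Hash G B) (σ : Fin G → Bool) (b : Fin (2 ^ G)) (u : ℝ) : ℝ :=
  (∑ a, wgt a b u * Real.cos (2 * Real.pi * (freq H σ b * fine H a))) / 2 ^ G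

/-- The signs of the first choice. -/
def sp (b : Fin (2 ^ G)) : Fin G → Bool := sig (vplus b)

/-- The signs of the second choice. -/
def sm (b : Fin (2 ^ G)) : Fin G → Bool := sig (vminus b)

lemma integral_sin_cos (k : ℕ) (hk : 1 ≤ k) :
    (∫ v in (0 : ℝ)..1, Real.sin ((k : ℝ) * (2 * Real.pi) * v)) = 0 ∧
      (∫ v in (0 : ℝ)..1, Real.cos ((k : ℝ) * (2 * Real.pi) * v)) = 0 := by
  have hc : (k : ℝ) * (2 * Real.pi) ≠ 0 :=
    mul_ne_zero (Nat.cast_ne_zero.2 (by omega)) Real.two_pi_pos.ne'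
  constructor
  · rw [intervalIntegral.integral_comp_mul_left (fun x => Real.sin x) hc, integral_sin, mul_zero,
      mul_one, Real.cos_zero, Real.cos_nat_mul_two_pi, sub_self, smul_zero]
  · rw [intervalIntegral.integral_comp_mul_left (fun x => Real.cos x) hc, integral_cos, mul_zero,
      mul_one, Real.sin_zero,
      show Real.sin ((k : ℝ) * (2 * Real.pi)) = 0 by
        rw [show (k : ℝ) * (2 * Real.pi) = ((2 * k : ℕ) : ℝ) * Real.pi by push_cast; ring]
        exact Real.sin_nat_mul_pi _, sub_self, smul_zero]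

lemma continuous_harm (H : Hash G B) (σ : Fin G → Bool) (b : Fin (2 ^ G)) (j : ℕ) :
    Continuous (harm H σ b j) := by
  unfold harm
  fun_prop

lemma amp_le_integral (H : Hash G B) (σ : Fin G → Bool) (b : Fin (2 ^ G)) (j : ℕ) :
    |amp H σ b ((j : ℝ) / 4 ^ (G + 1))| / 2 ≤ ∫ v in (0 : ℝ)..1, |harm H σ b j v| := by
  obtain ⟨η, hη⟩ : ∃ η, η = freq H σ b := ⟨_, rfl⟩
  obtain ⟨As, hAs⟩ : ∃ As, As = (∑ a, wgt a b ((j : ℝ) / 4 ^ (G + 1))
      * Real.sin (2 * Real.pi * (freq H σ b * fine H a))) / 2 ^ G := ⟨_, rfl⟩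
  obtain ⟨A, hA⟩ : ∃ A, A = amp H σ b ((j : ℝ) / 4 ^ (G + 1)) := ⟨_, rfl⟩
  have hh : ∀ v : ℝ, harm H σ b j v =
      Real.sin (2 * Real.pi * (η * v)) * A - Real.cos (2 * Real.pi * (η * v)) * As := fun v => by
    rw [hA, hAs, amp, harm, ← hη, mul_div_assoc', mul_div_assoc', ← sub_div]
    refine congrArg (· / _) ?_
    rw [mul_sum, mul_sum, ← sum_sub_distrib]
    refine sum_congr rfl fun a _ => ?_
    rw [show 2 * Real.pi * ((η : ℝ) * v - η * fine H a)
      = 2 * Real.pi * (η * v) - 2 * Real.pi * (η * fine H a) by ring, Real.sin_sub]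
    ring
  have hd : ∀ v : ℝ, harm H σ b j v * Real.sin (2 * Real.pi * (η * v)) = A / 2
      - Real.cos (((2 * η : ℕ) : ℝ) * (2 * Real.pi) * v) * (A / 2)
      - Real.sin (((2 * η : ℕ) : ℝ) * (2 * Real.pi) * v) * (As / 2) := fun v => by
    rw [hh, show ((2 * η : ℕ) : ℝ) * (2 * Real.pi) * v = 2 * (2 * Real.pi * (η * v)) by
      push_cast; ring, Real.cos_two_mul, Real.sin_two_mul]
    linear_combination A * Real.sin_sq_add_cos_sq (2 * Real.pi * (η * v))
  have h1 : 1 ≤ 2 * η := by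
    have := freq_pos H σ b
    omega
  have hi : (∫ v in (0 : ℝ)..1, harm H σ b j v * Real.sin (2 * Real.pi * (η * v))) = A / 2 := by
    simp only [hd]
    rw [intervalIntegral.integral_sub, intervalIntegral.integral_sub,
      intervalIntegral.integral_mul_const, intervalIntegral.integral_mul_const,
      (integral_sin_cos _ h1).1, (integral_sin_cos _ h1).2] <;>
      first
        | exact Continuous.intervalIntegrable (by fun_prop) _ _
        | simp
  rw [← hA]
  calc |A| / 2 = |A / 2| := by rw [abs_div, abs_two]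
    _ ≤ ∫ v in (0 : ℝ)..1, |harm H σ b j v * Real.sin (2 * Real.pi * (η * v))| := by
        rw [← hi]
        exact intervalIntegral.abs_integral_le_integral_abs zero_le_one
    _ ≤ ∫ v in (0 : ℝ)..1, |harm H σ b j v| := by
        have hc := continuous_harm H σ b j
        refine intervalIntegral.integral_mono_on zero_le_one
          ((hc.mul (by fun_prop)).abs.intervalIntegrable _ _) (hc.abs.intervalIntegrable _ _)
          fun v _ => ?_
        rw [abs_mul]
        exact mul_le_of_le_one_right (abs_nonneg _) (Real.abs_sin_le_one _)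

/-- The range of the sub cells. -/
def mid (G : ℕ) : Finset ℕ := Ico (2 * 4 ^ G) (3 * 4 ^ G)

lemma mid_spec {G j : ℕ} (hj : j ∈ mid G) : 4 ^ (G + 1) ≤ 2 * j ∧ 4 * (j + 1) ≤ 3 * 4 ^ (G + 1) ∧
    1 / 4 ≤ (j : ℝ) / 4 ^ (G + 1) ∧ (j : ℝ) / 4 ^ (G + 1) ≤ 3 / 4 := by
  rw [mid, mem_Ico] at hj
  have e : 4 ^ (G + 1) = 4 * 4 ^ G := by ring
  have h1 : 2 * (4 : ℝ) ^ G ≤ j := by exact_mod_cast hj.1
  have h2 : (j : ℝ) + 1 ≤ 3 * (4 : ℝ) ^ G := by exact_mod_cast hj.2
  have hp : (0 : ℝ) < 4 ^ (G + 1) := by positivity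
  refine ⟨by omega, by omega, ?_, ?_⟩
  · rw [le_div_iff₀ hp, pow_succ]
    linarith
  · rw [div_le_iff₀ hp, pow_succ]
    linarith

lemma card_mid (G : ℕ) : ((mid G).card : ℝ) = 4 ^ G := by
  rw [mid, Nat.card_Ico, show 3 * 4 ^ G - 2 * 4 ^ G = 4 ^ G by omega]
  push_cast
  rfl

lemma abs_harm_le (H : Hash G B) (σ : Fin G → Bool) (b : Fin (2 ^ G)) {j : ℕ} (hj : j ∈ mid G)
    (v : ℝ) : |harm H σ b j v| ≤ 8 * ((G : ℝ) + 1) := by
  obtain ⟨-, -, h0, h1⟩ := mid_spec hj
  refine le_trans ?_ (sum_abs_wgt_le b h0 h1)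
  rw [harm, abs_div, abs_of_pos (by positivity : (0 : ℝ) < 2 ^ G)]
  refine div_le_div_of_nonneg_right ((abs_sum_le_sum_abs _ _).trans
    (sum_le_sum fun a _ => ?_)) (by positivity)
  rw [abs_mul]
  exact mul_le_of_le_one_right (abs_nonneg _) (Real.abs_sin_le_one _)

lemma phase_err (hG : 1 ≤ G) :
    20 * (G : ℝ) / bsz G + 2 * Real.pi * (G * G) * (1 / 2) ^ bsz G ≤ 1 / 1000 := by
  have hG' : (1 : ℝ) ≤ G := by exact_mod_cast hG
  have h1 : 20 * (G : ℝ) / bsz G = 20 / 32768 := by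
    rw [bsz]
    push_cast
    field_simp
  have h2 : ((G : ℝ) * G) * (1 / 2) ^ bsz G ≤ (1 / 2) ^ 17 := by
    have hle : (G : ℝ) ≤ 2 ^ G := by exact_mod_cast Nat.lt_two_pow_self.le
    have hp : (2 : ℝ) ^ G * 2 ^ G * 2 ^ 17 ≤ 2 ^ bsz G := by
      rw [← pow_add, ← pow_add]
      exact pow_le_pow_right₀ one_le_two (by rw [bsz]; omega)
    rw [one_div, inv_pow, inv_pow, ← div_eq_mul_inv, div_le_iff₀ (by positivity),
      inv_mul_eq_div, le_div_iff₀ (by positivity)]
    exact le_trans (by gcongr) hp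
  rw [h1, mul_assoc (2 * Real.pi)]
  calc _ ≤ (20 : ℝ) / 32768 + 8 * (1 / 2) ^ 17 := by
        refine add_le_add le_rfl (mul_le_mul ?_ h2 (by positivity) (by norm_num))
        linarith [Real.pi_le_four]
    _ ≤ _ := by norm_num

/-- On average over the hashes the two amplitudes differ by the order of `G`. -/
lemma amp_avg (hG : 20 ≤ G) (b : Fin (2 ^ G)) {j : ℕ} (hj : j ∈ mid G) :
    (Fintype.card (Hash G (bsz G)) : ℝ) * ((G : ℝ) / 15) ≤ ∑ H : Hash G (bsz G),
      (|amp H (sp b) b ((j : ℝ) / 4 ^ (G + 1))| + |amp H (sm b) b ((j : ℝ) / 4 ^ (G + 1))|) := by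
  obtain ⟨-, -, hu0, hu1⟩ := mid_spec hj
  obtain ⟨u, hu⟩ : ∃ u, u = (j : ℝ) / 4 ^ (G + 1) := ⟨_, rfl⟩
  rw [← hu] at hu0 hu1 ⊢
  have hB : 0 < bsz G := by rw [bsz]; omega
  have : Nonempty (Fin (bsz G)) := ⟨⟨0, hB⟩⟩
  obtain ⟨C, hC⟩ : ∃ C : ℝ, C = Fintype.card (Hash G (bsz G)) := ⟨_, rfl⟩
  have hC0 : 0 < C := hC ▸ Nat.cast_pos.2 Fintype.card_pos
  have key : ∀ σ : Fin G → Bool, |(∑ H : Hash G (bsz G), amp H σ b u) / C
      - (∑ a, wgt a b u * (∏ i, ideal σ a b i).re) / 2 ^ G| ≤ 8 * ((G : ℝ) + 1) / 1000 := by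
    intro σ
    have e : (∑ H : Hash G (bsz G), amp H σ b u) / C = (∑ a, wgt a b u *
        ((∑ H : Hash G (bsz G), Real.cos (2 * Real.pi * (freq H σ b * fine H a))) / C)) / 2 ^ G := by
      simp only [amp]
      rw [← sum_div, div_div, mul_comm ((2 : ℝ) ^ G) C, ← div_div, sum_comm, sum_div]
      refine congrArg (· / _) (sum_congr rfl fun a _ => ?_)
      rw [← mul_sum, mul_div_assoc]
    rw [e, ← sub_div, ← sum_sub_distrib, abs_div, abs_of_pos (by positivity : (0 : ℝ) < 2 ^ G)]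
    calc _ ≤ (∑ a, |wgt a b u| * (1 / 1000)) / 2 ^ G := by
          refine div_le_div_of_nonneg_right ((abs_sum_le_sum_abs _ _).trans
            (sum_le_sum fun a _ => ?_)) (by positivity)
          rw [← mul_sub, abs_mul, hC]
          exact mul_le_mul_of_nonneg_left ((phase_avg hB σ a b).trans (phase_err (by omega)))
            (abs_nonneg _)
      _ = (∑ a, |wgt a b u|) / 2 ^ G / 1000 := by rw [← sum_mul]; ring
      _ ≤ _ := div_le_div_of_nonneg_right (sum_abs_wgt_le b hu0 hu1) (by norm_num)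
  have hp := abs_le.1 (key (sp b))
  have hm := abs_le.1 (key (sm b))
  have hc : (G : ℝ) / 10 ≤ (∑ a, wgt a b u * (∏ i, ideal (sp b) a b i).re) / 2 ^ G
      - (∑ a, wgt a b u * (∏ i, ideal (sm b) a b i).re) / 2 ^ G := by
    refine (contrast_ge hG b (u := u) (by linarith) (by linarith)).trans (le_of_eq ?_)
    rw [← sub_div, ← sum_sub_distrib]
    refine congrArg (· / _) (sum_congr rfl fun a _ => ?_)
    rw [contrast, mul_sub]
    rfl
  have hG' : (20 : ℝ) ≤ G := by exact_mod_cast hG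
  have hd : (G : ℝ) / 15 ≤ ((∑ H : Hash G (bsz G), amp H (sp b) b u)
      - ∑ H : Hash G (bsz G), amp H (sm b) b u) / C := by
    rw [sub_div]
    linarith
  rw [le_div_iff₀ hC0, ← sum_sub_distrib] at hd
  rw [← hC, mul_comm]
  exact hd.trans (sum_le_sum fun H _ =>
    le_trans (le_abs_self _) (abs_sub _ _))

/-- The partial sums of the block. -/
def bsum (H : Hash G (bsz G)) (N : ℕ) : ℝ → ℝ :=
  sst (hgt G (bsz G) : ℝ) (wid G (bsz G)) (yst H) N

/-- The largest partial sum up to the height of the block. -/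
def bmax (H : Hash G (bsz G)) (s : ℝ) : ℝ :=
  (range (hgt G (bsz G) + 1)).sup' nonempty_range_add_one fun N => |bsum H N s|

lemma continuous_bmax (H : Hash G (bsz G)) : Continuous (bmax H) :=
  Continuous.finset_sup'_apply nonempty_range_add_one fun _ _ => (continuous_sst _ _ _ _).abs

lemma piece_bound (hG : 20 ≤ G) (H : Hash G (bsz G)) (b : Fin (2 ^ G)) {j : ℕ} (hj : j ∈ mid G) :
    ((|amp H (sp b) b ((j : ℝ) / 4 ^ (G + 1))| + |amp H (sm b) b ((j : ℝ) / 4 ^ (G + 1))|) / 4 - 400)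
        / (2 ^ G * 4 ^ (G + 1))
      ≤ ∫ s in (((b : ℕ) * 4 ^ (G + 1) + j : ℕ) : ℝ) / (2 ^ G * 4 ^ (G + 1))..
          ((((b : ℕ) * 4 ^ (G + 1) + j : ℕ) + 1 : ℕ) : ℝ) / (2 ^ G * 4 ^ (G + 1)),
          min (bmax H s) (10 * G) := by
  obtain ⟨hj1, hj2, -, -⟩ := mid_spec hj
  obtain ⟨L, hL⟩ : ∃ L : ℝ, L = 2 ^ G * 4 ^ (G + 1) := ⟨_, rfl⟩
  have hL0 : 0 < L := hL ▸ by positivity
  obtain ⟨K, hK⟩ : ∃ K, K = (b : ℕ) * 4 ^ (G + 1) + j := ⟨_, rfl⟩
  rw [← hL, ← hK]
  have hf : Continuous fun s => min (bmax H s) (10 * (G : ℝ)) :=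
    (continuous_bmax H).min continuous_const
  have hsub : (∫ s in (K : ℝ) / L..((K + 1 : ℕ) : ℝ) / L, min (bmax H s) (10 * (G : ℝ)))
      = (∫ v in (0 : ℝ)..1, min (bmax H ((K : ℝ) / L + v / L)) (10 * (G : ℝ))) / L := by
    rw [intervalIntegral.integral_comp_add_div (fun s => min (bmax H s) (10 * (G : ℝ))) hL0.ne',
      smul_eq_mul, zero_div, add_zero, mul_div_cancel_left₀ _ hL0.ne']
    congr 1
    push_cast
    ring
  rw [hsub]
  refine div_le_div_of_nonneg_right ?_ hL0.le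
  have hc1 := continuous_harm H (sp b) b j
  have hc2 := continuous_harm H (sm b) b j
  have hp := amp_le_integral H (sp b) b j
  have hm := amp_le_integral H (sm b) b j
  have hlow : (∫ v in (0 : ℝ)..1, ((|harm H (sp b) b j v| + |harm H (sm b) b j v|) / 2 - 400))
      ≤ ∫ v in (0 : ℝ)..1, min (bmax H ((K : ℝ) / L + v / L)) (10 * (G : ℝ)) := by
    refine intervalIntegral.integral_mono_on zero_le_one
      (Continuous.intervalIntegrable (by fun_prop) _ _)
      ((hf.comp (by fun_prop : Continuous fun v : ℝ => (K : ℝ) / L + v / L)).intervalIntegrable _ _)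
      fun v hv => ?_
    have hs : (K : ℝ) / L + v / L
        = (((b : ℕ) : ℝ) + ((j : ℝ) + v) / 4 ^ (G + 1)) / 2 ^ G := by
      rw [hK, hL]
      push_cast
      field_simp
      ring
    have one : ∀ σ, |harm H σ b j v| - 400 ≤ bmax H ((K : ℝ) / L + v / L) := by
      intro σ
      have h := sst_near (by omega : 4 ≤ G) H σ b hj1 hj2 hv.1 hv.2
      rw [← hs] at h
      refine le_trans ?_ (le_sup' (fun N => |bsum H N ((K : ℝ) / L + v / L)|)
        (mem_range.2 (Nat.lt_succ_of_le (deg_le H σ b))))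
      have := abs_sub_abs_le_abs_sub (harm H σ b j v) (bsum H (deg H σ b) ((K : ℝ) / L + v / L))
      rw [abs_sub_comm] at this
      unfold bsum at this ⊢
      linarith
    have t1 := one (sp b)
    have t2 := one (sm b)
    have u1 := abs_harm_le H (sp b) b hj v
    have u2 := abs_harm_le H (sm b) b hj v
    have hG' : (20 : ℝ) ≤ G := by exact_mod_cast hG
    refine le_min ?_ ?_ <;> linarith
  rw [intervalIntegral.integral_sub (Continuous.intervalIntegrable (by fun_prop) _ _)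
      intervalIntegrable_const, intervalIntegral.integral_div,
    intervalIntegral.integral_add (hc1.abs.intervalIntegrable _ _) (hc2.abs.intervalIntegrable _ _),
    intervalIntegral.integral_const, sub_zero, one_smul] at hlow
  linarith

/-- Some block has partial sums of order `G` on a set of fixed measure. -/
theorem core (hG : 120000 ≤ G) : ∃ H : Hash G (bsz G),
    (1 : ℝ) / 6000 ≤ volume.real
      {s ∈ Set.Icc (0 : ℝ) 1 | ∃ N ≤ hgt G (bsz G), (G : ℝ) / 1000 ≤ |bsum H N s|} := by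
  classical
  have hB : 0 < bsz G := by rw [bsz]; omega
  have : Nonempty (Fin (bsz G)) := ⟨⟨0, hB⟩⟩
  obtain ⟨F, hF⟩ : ∃ F : Hash G (bsz G) → ℝ, F = fun H => ∑ b : Fin (2 ^ G), ∑ j ∈ mid G,
      (|amp H (sp b) b ((j : ℝ) / 4 ^ (G + 1))| + |amp H (sm b) b ((j : ℝ) / 4 ^ (G + 1))|) :=
    ⟨_, rfl⟩
  obtain ⟨H, -, hH⟩ : ∃ H ∈ (univ : Finset (Hash G (bsz G))),
      (2 : ℝ) ^ G * 4 ^ G * ((G : ℝ) / 15) ≤ F H := by
    refine exists_le_of_sum_le univ_nonempty ?_
    rw [hF, sum_comm (t := univ), sum_const, card_univ, nsmul_eq_mul]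
    refine le_trans ?_ (sum_le_sum (f := fun b : Fin (2 ^ G) => ∑ _j ∈ mid G,
      (Fintype.card (Hash G (bsz G)) : ℝ) * ((G : ℝ) / 15)) fun b _ => ?_)
    swap
    · rw [sum_comm]
      exact sum_le_sum fun j hj => amp_avg (by omega) b hj
    simp only [sum_const, card_univ, Fintype.card_fin, nsmul_eq_mul, card_mid]
    push_cast
    exact le_of_eq (by ring)
  refine ⟨H, ?_⟩
  obtain ⟨L, hL⟩ : ∃ L : ℕ, L = 2 ^ G * 4 ^ (G + 1) := ⟨_, rfl⟩
  have hLr : ((L : ℕ) : ℝ) = 2 ^ G * 4 ^ (G + 1) := by rw [hL]; push_cast; rfl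
  have hG' : (120000 : ℝ) ≤ G := by exact_mod_cast hG
  have hf : Continuous fun s => min (bmax H s) (10 * (G : ℝ)) :=
    (continuous_bmax H).min continuous_const
  have hnn : ∀ s, 0 ≤ min (bmax H s) (10 * (G : ℝ)) := fun s =>
    le_min ((abs_nonneg _).trans (le_sup' (fun N => |bsum H N s|) (mem_range.2 (Nat.succ_pos _))))
      (by positivity)
  have hlow : (G : ℝ) / 300 ≤ ∫ s in (0 : ℝ)..1, min (bmax H s) (10 * (G : ℝ)) := by
    have hsum := intervalIntegral.sum_integral_adjacent_intervals (μ := volume)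
      (f := fun s => min (bmax H s) (10 * (G : ℝ))) (a := fun k : ℕ => (k : ℝ) / L) (n := L)
      fun k _ => hf.intervalIntegrable _ _
    simp only [Nat.cast_zero, zero_div] at hsum
    rw [div_self (by rw [hLr]; positivity)] at hsum
    rw [← hsum]
    obtain ⟨g, hg⟩ : ∃ g : Fin (2 ^ G) × ℕ → ℕ, g = fun p => (p.1 : ℕ) * 4 ^ (G + 1) + p.2 :=
      ⟨_, rfl⟩
    have hlt : ∀ p ∈ (univ : Finset (Fin (2 ^ G))) ×ˢ mid G, p.2 < 4 ^ (G + 1) := fun p hp => by
      have := (mid_spec (mem_product.1 hp).2).2.1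
      omega
    have hinj : Set.InjOn g ((univ : Finset (Fin (2 ^ G))) ×ˢ mid G : Finset _) := by
      intro p hp q hq e
      rw [hg] at e
      simp only at e
      have hp' := hlt p hp
      have hq' := hlt q hq
      have h1 : (p.1 : ℕ) = q.1 := by
        rcases lt_trichotomy (p.1 : ℕ) q.1 with h | h | h
        · have := Nat.mul_le_mul_right (4 ^ (G + 1)) h
          simp only [Nat.succ_eq_add_one, add_one_mul] at this
          omega
        · exact h
        · have := Nat.mul_le_mul_right (4 ^ (G + 1)) h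
          simp only [Nat.succ_eq_add_one, add_one_mul] at this
          omega
      rw [h1] at e
      exact Prod.ext (Fin.ext h1) (Nat.add_left_cancel e)
    have hsub : ((univ : Finset (Fin (2 ^ G))) ×ˢ mid G).image g ⊆ range L := by
      intro k hk
      obtain ⟨p, hp, rfl⟩ := mem_image.1 hk
      rw [mem_range, hL, hg]
      have h := Nat.mul_le_mul_right (4 ^ (G + 1)) p.1.2
      simp only [Nat.succ_eq_add_one, add_one_mul] at h
      have := hlt p hp
      show (p.1 : ℕ) * 4 ^ (G + 1) + p.2 < _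
      omega
    refine le_trans ?_ (sum_le_sum_of_subset_of_nonneg hsub fun k _ _ =>
      intervalIntegral.integral_nonneg (by gcongr; omega) fun s _ => hnn s)
    rw [sum_image hinj, sum_product]
    refine le_trans ?_ (sum_le_sum fun b _ => sum_le_sum fun j hj => by
      simpa only [hg, hLr] using piece_bound (by omega) H b hj)
    rw [hF] at hH
    simp only at hH
    simp only [← sum_div, sum_sub_distrib, sum_const, card_univ, Fintype.card_fin, nsmul_eq_mul,
      card_mid, Nat.cast_pow, Nat.cast_ofNat]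
    rw [le_div_iff₀ (by positivity),
      show (2 : ℝ) ^ G * 4 ^ (G + 1) = 2 ^ G * (4 ^ G * 4) by ring]
    have hp : (0 : ℝ) < 2 ^ G * 4 ^ G := by positivity
    have hbig : (G : ℝ) / 300 * 4 ≤ (G : ℝ) / 15 / 4 - 400 := by linarith
    have := mul_le_mul_of_nonneg_left hbig hp.le
    linarith
  obtain ⟨E, hE⟩ : ∃ E : Set ℝ, E = {s ∈ Set.Icc (0 : ℝ) 1 | (G : ℝ) / 1000 ≤ bmax H s} :=
    ⟨_, rfl⟩
  have hEe : {s ∈ Set.Icc (0 : ℝ) 1 | ∃ N ≤ hgt G (bsz G), (G : ℝ) / 1000 ≤ |bsum H N s|} = E := by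
    ext s
    simp only [hE, bmax, le_sup'_iff, mem_range, Nat.lt_succ_iff, Set.mem_ofPred_eq]
  have hEm : MeasurableSet E :=
    hE ▸ measurableSet_Icc.inter (isClosed_le continuous_const (continuous_bmax H)).measurableSet
  have hEsub : E ⊆ Set.Icc 0 1 := fun s hs => by rw [hE] at hs; exact hs.1
  have hEfin : volume E ≠ ⊤ := ((measure_mono hEsub).trans_lt (by simp)).ne
  rw [hEe]
  have hup : (∫ s in (0 : ℝ)..1, min (bmax H s) (10 * (G : ℝ)))
      ≤ (G : ℝ) / 1000 + 10 * G * volume.real E := by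
    have hi : IntegrableOn (E.indicator fun _ => 10 * (G : ℝ)) (Set.Icc 0 1) :=
      (integrableOn_const (by simp)).indicator hEm
    have hc : IntegrableOn (fun _ => (G : ℝ) / 1000) (Set.Icc (0 : ℝ) 1) :=
      integrableOn_const (by simp)
    rw [intervalIntegral.integral_of_le zero_le_one, ← integral_Icc_eq_integral_Ioc]
    refine (setIntegral_mono_on (g := fun s => (G : ℝ) / 1000 + E.indicator (fun _ => 10 * (G : ℝ)) s)
      (hf.integrableOn_Icc) (hc.add hi) measurableSet_Icc fun s hs => ?_).trans ?_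
    · by_cases h : s ∈ E
      · rw [Set.indicator_of_mem h]
        exact (min_le_right _ _).trans (le_add_of_nonneg_left (by positivity))
      · rw [Set.indicator_of_notMem h, add_zero]
        rw [hE] at h
        exact (min_le_left _ _).trans (not_le.1 fun h' => h ⟨hs, h'⟩).le
    · rw [integral_add hc hi, setIntegral_const, setIntegral_indicator hEm, setIntegral_const,
        Set.inter_eq_right.2 hEsub, smul_eq_mul, smul_eq_mul]
      simp only [Real.volume_real_Icc, sub_zero, max_eq_left zero_le_one, one_mul]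
      linarith [mul_comm (volume.real E) (10 * (G : ℝ))]
  nlinarith

end

end Vale.Agent.P091.Sqrt
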