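import Mathlib

/-!
# P091: translates of sets of fixed measure cover almost every point infinitely often
-/

namespace Vale.Agent.P091.Sqrt

open MeasureTheory Filter
open scoped ENNReal Topology

noncomputable section

variable {T : ℝ} [Fact (0 < T)]

lemma avg_shift {E : Set (AddCircle T)} (hE : MeasurableSet E) {D : AddCircle T → ℝ≥0∞}
    (hD : Measurable D) : ∃ θ, ∫⁻ x, D x * Eᶜ.indicator (fun _ => 1) (x - θ) ∂AddCircle.haarAddCircle
      ≤ AddCircle.haarAddCircle Eᶜ * ∫⁻ x, D x ∂AddCircle.haarAddCircle := by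
  obtain ⟨g, hg⟩ : ∃ g : AddCircle T → ℝ≥0∞, g = Eᶜ.indicator fun _ => 1 := ⟨_, rfl⟩
  have hgm : Measurable g := hg ▸ measurable_const.indicator hE.compl
  have hu : Measurable (Function.uncurry fun θ x => D x * g (x - θ)) :=
    (hD.comp measurable_snd).mul (hgm.comp (measurable_snd.sub measurable_fst))
  rw [← hg]
  obtain ⟨θ, hθ⟩ := exists_le_lintegral (μ := (AddCircle.haarAddCircle : Measure (AddCircle T)))
    (hu.lintegral_prod_right' (ν := (AddCircle.haarAddCircle : Measure (AddCircle T)))).aemeasurable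
  refine ⟨θ, hθ.trans (le_of_eq ?_)⟩
  simp only [Function.uncurry]
  rw [lintegral_lintegral_swap hu.aemeasurable]
  have hinner : ∀ x, ∫⁻ θ, D x * g (x - θ) ∂(AddCircle.haarAddCircle : Measure (AddCircle T))
      = D x * AddCircle.haarAddCircle Eᶜ := by
    intro x
    rw [lintegral_const_mul _ (f := fun θ => g (x - θ)) (hgm.comp (measurable_const.sub measurable_id)),
      lintegral_sub_left_eq_self g x, hg, lintegral_indicator_const hE.compl, one_mul]
  simp only [hinner]
  rw [lintegral_mul_const _ hD, mul_comm]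

/-- The shift chosen for a weight. -/
def pick {E : Set (AddCircle T)} (hE : MeasurableSet E) (D : {D : AddCircle T → ℝ≥0∞ // Measurable D})
    (c : ℝ≥0∞) : AddCircle T :=
  (avg_shift hE (D.2.add (measurable_const (a := c)))).choose

/-- The weights of the points not covered yet. -/
def rest {E : ℕ → Set (AddCircle T)} (hE : ∀ k, MeasurableSet (E k)) :
    ℕ → {D : AddCircle T → ℝ≥0∞ // Measurable D}
  | 0 => ⟨fun _ => 0, measurable_const⟩
  | n + 1 => ⟨fun x => ((rest hE n).1 x + 2⁻¹ ^ n)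
      * (E n)ᶜ.indicator (fun _ => 1) (x - pick (hE n) (rest hE n) (2⁻¹ ^ n)),
      ((rest hE n).2.add measurable_const).mul ((measurable_const.indicator (hE n).compl).comp
        (measurable_id.sub measurable_const))⟩

theorem exists_shifts {E : ℕ → Set (AddCircle T)} (hE : ∀ k, MeasurableSet (E k)) {p : ℝ}
    (hp : 0 < p) (hp1 : p ≤ 1) (hpE : ∀ k, p ≤ AddCircle.haarAddCircle.real (E k)) :
    ∃ θ : ℕ → AddCircle T, ∀ᵐ x ∂AddCircle.haarAddCircle, ∀ m, ∃ k, m ≤ k ∧ x - θ k ∈ E k := by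
  obtain ⟨θ, hθ⟩ : ∃ θ : ℕ → AddCircle T, θ = fun k => pick (hE k) (rest hE k) (2⁻¹ ^ k) :=
    ⟨_, rfl⟩
  refine ⟨θ, ?_⟩
  obtain ⟨ρ, hρ⟩ : ∃ ρ : ℝ, ρ = max (1 - p / 2) (3 / 4) := ⟨_, rfl⟩
  have hρ0 : 3 / 4 ≤ ρ := hρ ▸ le_max_right _ _
  have hρp : 1 - p / 2 ≤ ρ := hρ ▸ le_max_left _ _
  have hρ1 : ρ < 1 := hρ ▸ max_lt (by linarith) (by norm_num)
  have hc : ∀ k, AddCircle.haarAddCircle (E k)ᶜ ≤ ENNReal.ofReal (1 - p) := fun k => by
    rw [← ENNReal.ofReal_toReal (measure_ne_top _ (E k)ᶜ)]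
    refine ENNReal.ofReal_le_ofReal ?_
    rw [← measureReal_def, probReal_compl_eq_one_sub (hE k)]
    linarith [hpE k]
  have hmain : ∀ n, ∫⁻ x, (rest hE n).1 x ∂AddCircle.haarAddCircle
      ≤ ENNReal.ofReal (2 / p * ρ ^ n) := by
    intro n
    induction n with
    | zero => simp [rest]
    | succ n ih =>
      have h := (avg_shift (hE n) ((rest hE n).2.add (measurable_const (a := 2⁻¹ ^ n)))).choose_spec
      refine le_trans h ?_
      simp only [Pi.add_apply]
      rw [lintegral_add_right _ measurable_const, lintegral_const, measure_univ, mul_one]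
      have h2 : (2⁻¹ : ℝ≥0∞) ^ n = ENNReal.ofReal ((1 / 2) ^ n) := by
        rw [ENNReal.ofReal_pow (by norm_num), one_div, ENNReal.ofReal_inv_of_pos two_pos,
          ENNReal.ofReal_ofNat]
      calc _ ≤ ENNReal.ofReal (1 - p) * (ENNReal.ofReal (2 / p * ρ ^ n)
              + ENNReal.ofReal ((1 / 2) ^ n)) := mul_le_mul' (hc n) (add_le_add ih (le_of_eq h2))
        _ = ENNReal.ofReal ((1 - p) * (2 / p * ρ ^ n + (1 / 2) ^ n)) := by
            rw [← ENNReal.ofReal_add (by positivity) (by positivity),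
              ← ENNReal.ofReal_mul (by linarith)]
        _ ≤ _ := by
            refine ENNReal.ofReal_le_ofReal ?_
            have hh : (1 / 2 : ℝ) ^ n ≤ ρ ^ n := pow_le_pow_left₀ (by norm_num) (by linarith) n
            have hr : 0 ≤ ρ ^ n := pow_nonneg (by linarith) n
            calc (1 - p) * (2 / p * ρ ^ n + (1 / 2) ^ n) ≤ (1 - p) * (2 / p + 1) * ρ ^ n := by
                  rw [mul_assoc, add_mul, one_mul]
                  exact mul_le_mul_of_nonneg_left (by linarith) (by linarith)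
              _ ≤ (2 / p * ρ) * ρ ^ n := by
                  refine mul_le_mul_of_nonneg_right ?_ hr
                  have h2p : (2 : ℝ) / p * ρ ≥ 2 / p * (1 - p / 2) :=
                    mul_le_mul_of_nonneg_left hρp (by positivity)
                  have e : (2 : ℝ) / p * (1 - p / 2) = 2 / p - 1 := by field_simp
                  have e' : (1 - p) * (2 / p + 1) = 2 / p - 1 - p := by field_simp; ring
                  linarith
              _ = _ := by ring
  refine ae_all_iff.2 fun m => ?_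
  rw [ae_iff]
  obtain ⟨U, hU⟩ : ∃ U : Set (AddCircle T), U = {x | ∀ k, m ≤ k → x - θ k ∈ (E k)ᶜ} := ⟨_, rfl⟩
  have hUe : {x | ¬ ∃ k, m ≤ k ∧ x - θ k ∈ E k} = U := by
    ext x; simp [hU]
  rw [hUe]
  have hge : ∀ n, m < n → ∀ x ∈ U, (2⁻¹ : ℝ≥0∞) ^ m ≤ (rest hE n).1 x := by
    intro n hn x hx
    induction n, hn using Nat.le_induction with
    | base =>
      have := (hU ▸ hx : x ∈ {x | ∀ k, m ≤ k → x - θ k ∈ (E k)ᶜ}) m le_rfl
      rw [hθ] at this
      simp only [rest, Set.indicator_of_mem this, mul_one]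
      exact le_add_self
    | succ n hn ih =>
      have := (hU ▸ hx : x ∈ {x | ∀ k, m ≤ k → x - θ k ∈ (E k)ᶜ}) n
        (by simp only [Nat.succ_eq_add_one] at hn; omega)
      rw [hθ] at this
      simp only [rest, Set.indicator_of_mem this, mul_one]
      exact ih.trans le_self_add
  have hb : ∀ n, m < n → (2⁻¹ : ℝ≥0∞) ^ m * AddCircle.haarAddCircle U
      ≤ ENNReal.ofReal (2 / p * ρ ^ n) := by
    intro n hn
    refine le_trans ?_ (hmain n)
    exact (mul_le_mul' le_rfl (measure_mono fun x hx => hge n hn x hx)).trans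
      (mul_meas_ge_le_lintegral₀ (rest hE n).2.aemeasurable _)
  have hlim : Tendsto (fun n => ENNReal.ofReal (2 / p * ρ ^ n)) atTop (𝓝 0) := by
    rw [← ENNReal.ofReal_zero]
    refine (ENNReal.continuous_ofReal.tendsto _).comp ?_
    simpa using (tendsto_pow_atTop_nhds_zero_of_lt_one (by linarith) hρ1).const_mul (2 / p)
  have h0 : (2⁻¹ : ℝ≥0∞) ^ m * AddCircle.haarAddCircle U ≤ 0 :=
    ge_of_tendsto hlim (eventually_atTop.2 ⟨m + 1, fun n hn => hb n hn⟩)
  exact (mul_eq_zero.1 (le_antisymm h0 bot_le)).resolve_left (pow_ne_zero _ (by norm_num))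

end

end Vale.Agent.P091.Sqrt
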