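import Mathlib

/-!
# P091: sparse digit blocks and their averaged phases

Each level gets a block of binary digits; a point carries one digit per block, chosen by a random
hash of its prefix. The phase against the frequency of a cell is `±1` on average, with no carries.
-/

namespace Vale.Agent.P091.Sqrt

open Finset

noncomputable section

/-- `exp (2 π i x)`. -/
def ph (x : ℝ) : ℂ := Complex.exp (Complex.I * ((2 * Real.pi * x : ℝ) : ℂ))

lemma ph_add (x y : ℝ) : ph (x + y) = ph x * ph y := by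
  rw [ph, ph, ph, ← Complex.exp_add]; congr 1; push_cast; ring

lemma ph_zero : ph 0 = 1 := by simp [ph]

lemma ph_re (x : ℝ) : (ph x).re = Real.cos (2 * Real.pi * x) := by
  rw [ph, mul_comm, Complex.exp_ofReal_mul_I_re]

lemma norm_ph (x : ℝ) : ‖ph x‖ = 1 := by
  rw [ph, mul_comm, Complex.norm_exp_ofReal_mul_I]

lemma norm_ph_sub_one_le (x : ℝ) : ‖ph x - 1‖ ≤ 2 * Real.pi * |x| := by
  refine Real.norm_exp_I_mul_ofReal_sub_one_le.trans (le_of_eq ?_)
  rw [Real.norm_eq_abs, abs_mul, abs_of_pos Real.two_pi_pos]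

lemma ph_nat (k : ℕ) : ph k = 1 := by
  rw [ph]
  convert Complex.exp_nat_mul_two_pi_mul_I k using 2
  push_cast; ring

lemma ph_sum {ι : Type*} (s : Finset ι) (f : ι → ℝ) : ph (∑ i ∈ s, f i) = ∏ i ∈ s, ph (f i) := by
  induction s using Finset.cons_induction with
  | empty => simp [ph_zero]
  | cons a s ha ih => rw [sum_cons, prod_cons, ph_add, ih]

lemma ph_half : ph (1 / 2) = -1 := by
  rw [ph]
  convert Complex.exp_pi_mul_I using 2
  push_cast; ring

/-- A product of numbers of norm at most one moves by at most the sum of the moves. -/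
lemma norm_prod_sub_prod_le {ι : Type*} (s : Finset ι) (f g : ι → ℂ) (hf : ∀ i ∈ s, ‖f i‖ ≤ 1)
    (hg : ∀ i ∈ s, ‖g i‖ ≤ 1) :
    ‖∏ i ∈ s, f i - ∏ i ∈ s, g i‖ ≤ ∑ i ∈ s, ‖f i - g i‖ := by
  induction s using Finset.cons_induction with
  | empty => simp
  | cons a s ha ih =>
    simp only [mem_cons, forall_eq_or_imp] at hf hg
    rw [prod_cons, prod_cons, sum_cons]
    have h1 : ‖∏ i ∈ s, f i‖ ≤ 1 := by
      rw [norm_prod]; exact prod_le_one (fun i _ => norm_nonneg _) hf.2
    calc ‖f a * ∏ i ∈ s, f i - g a * ∏ i ∈ s, g i‖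
        = ‖(f a - g a) * ∏ i ∈ s, f i + g a * (∏ i ∈ s, f i - ∏ i ∈ s, g i)‖ := by ring_nf
      _ ≤ ‖f a - g a‖ * 1 + 1 * ∑ i ∈ s, ‖f i - g i‖ := by
          refine (norm_add_le _ _).trans (add_le_add ?_ ?_)
          · rw [norm_mul]; exact mul_le_mul_of_nonneg_left h1 (norm_nonneg _)
          · rw [norm_mul]; exact mul_le_mul hg.1 (ih hf.2 hg.2) (norm_nonneg _) zero_le_one
      _ = _ := by ring

lemma sum_pi_eval {α β : Type*} [Fintype α] [Fintype β] [DecidableEq α] (p : α) (F : β → ℂ) :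
    ∑ r : α → β, F (r p) = (Fintype.card ({j : α // j ≠ p} → β) : ℂ) * ∑ c, F c := by
  rw [← (Equiv.funSplitAt p β).symm.sum_comp (fun r => F (r p)), Fintype.sum_prod_type,
    Finset.mul_sum]
  refine sum_congr rfl fun c _ => ?_
  simp [Equiv.funSplitAt, Equiv.piSplitAt]

lemma sum_pi_eval₂ {α β : Type*} [Fintype α] [Fintype β] [DecidableEq α] {p q : α} (hpq : p ≠ q)
    (F : β → β → ℂ) :
    ∑ r : α → β, F (r p) (r q)
      = (Fintype.card ({j : {j : α // j ≠ p} // j ≠ ⟨q, hpq.symm⟩} → β) : ℂ)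
          * ∑ c, ∑ d, F c d := by
  rw [← (Equiv.funSplitAt p β).symm.sum_comp (fun r => F (r p) (r q)), Fintype.sum_prod_type,
    Finset.mul_sum]
  refine sum_congr rfl fun c _ => ?_
  rw [← sum_pi_eval (⟨q, hpq.symm⟩ : {j : α // j ≠ p}) (F c)]
  refine sum_congr rfl fun r _ => ?_
  simp [Equiv.funSplitAt, Equiv.piSplitAt, hpq.symm]

/-- The phase of two digits in the same block. -/
def diag {B : ℕ} (c d : Fin B) : ℂ := ph ((2 : ℝ) ^ (c : ℕ) / 2 ^ ((d : ℕ) + 1))

lemma diag_self {B : ℕ} (c : Fin B) : diag c c = -1 := by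
  rw [diag, pow_succ, div_mul_eq_div_div, div_self (by positivity), ph_half]

lemma norm_diag_avg_le {B : ℕ} (c : Fin B) : ‖∑ d, (diag c d - 1)‖ ≤ 20 := by
  refine (norm_sum_le _ _).trans ?_
  have hb : ∀ d : Fin B, ‖diag c d - 1‖
      ≤ (if d = c then 2 else 0)
        + if (c : ℕ) < d then 2 * Real.pi * (1 / 2) ^ ((d : ℕ) - c) else 0 := by
    intro d
    rcases lt_trichotomy (d : ℕ) (c : ℕ) with h | h | h
    · obtain ⟨k, hk⟩ := Nat.exists_eq_add_of_lt h
      have e : (2 : ℝ) ^ (c : ℕ) / 2 ^ ((d : ℕ) + 1) = ((2 ^ k : ℕ) : ℝ) := by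
        rw [hk, div_eq_iff (by positivity)]; push_cast; rw [← pow_add]; congr 1; omega
      rw [diag, e, ph_nat, sub_self, norm_zero]
      exact add_nonneg (by split_ifs <;> norm_num) (by split_ifs <;> positivity)
    · rw [Fin.ext h, diag_self, if_pos rfl, if_neg (lt_irrefl _), add_zero]
      norm_num
    · rw [if_neg (fun e => absurd (congrArg Fin.val e) h.ne'), if_pos h, zero_add, diag]
      refine (norm_ph_sub_one_le _).trans (mul_le_mul_of_nonneg_left ?_ Real.two_pi_pos.le)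
      obtain ⟨k, hk⟩ := Nat.exists_eq_add_of_lt h
      rw [abs_of_nonneg (by positivity), hk, show (c : ℕ) + k + 1 - c = k + 1 by omega,
        div_le_iff₀ (by positivity), one_div, inv_pow, inv_mul_eq_div, le_div_iff₀ (by positivity),
        ← pow_add]
      exact pow_le_pow_right₀ one_le_two (by omega)
  refine (sum_le_sum fun d _ => hb d).trans ?_
  rw [sum_add_distrib, sum_ite_eq' univ c fun _ => (2 : ℝ), if_pos (mem_univ c), ← sum_filter,
    ← mul_sum]
  have hg : ∑ d ∈ univ.filter fun d : Fin B => (c : ℕ) < d, (1 / 2 : ℝ) ^ ((d : ℕ) - c) ≤ 2 := by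
    rw [← sum_image (f := fun k : ℕ => (1 / 2 : ℝ) ^ k) (g := fun d : Fin B => (d : ℕ) - c)]
    · refine le_trans (sum_le_sum_of_subset_of_nonneg (t := range B) ?_ fun k _ _ => by positivity)
        (sum_geometric_two_le B)
      intro k hk
      obtain ⟨d, -, rfl⟩ := mem_image.1 hk
      exact mem_range.2 (lt_of_le_of_lt (Nat.sub_le _ _) d.2)
    · intro d hd d' hd' h
      simp only [coe_filter, mem_univ, true_and, Set.mem_ofPred_eq] at hd hd' h
      ext; omega
  nlinarith [Real.pi_lt_four, Real.pi_pos]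

variable {G B : ℕ}

/-- The prefix of length `i + 1`. -/
def pre (i : Fin G) (a : Fin (2 ^ G)) : Fin (2 ^ G) :=
  ⟨(a : ℕ) / 2 ^ (G - 1 - (i : ℕ)), lt_of_le_of_lt (Nat.div_le_self _ _) a.2⟩

/-- A choice of one bucket for each level and prefix. -/
abbrev Hash (G B : ℕ) := Fin G → Fin (2 ^ G) → Fin B

/-- The position of the digit of `a` at level `i`. -/
def pos (H : Hash G B) (a : Fin (2 ^ G)) (i : Fin G) : ℕ := 2 * B * i + H i (pre i a)

/-- The fine position of `a`. -/
def fine (H : Hash G B) (a : Fin (2 ^ G)) : ℝ := ∑ i, ((2 : ℝ) ^ (pos H a i + 1))⁻¹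

/-- The frequency of the cell `b` with signs `σ`. -/
def freq (H : Hash G B) (σ : Fin G → Bool) (b : Fin (2 ^ G)) : ℕ :=
  4 * 2 ^ (2 * B * G) + ∑ i, if σ i then 2 ^ pos H b i else 0

lemma pos_lt (H : Hash G B) (a : Fin (2 ^ G)) (i : Fin G) : pos H a i < 2 * B * G := by
  have h1 := (H i (pre i a)).2
  have h2 : 2 * B * ((i : ℕ) + 1) ≤ 2 * B * G := Nat.mul_le_mul_left _ i.2
  simp only [pos]
  linarith

lemma freq_pos (H : Hash G B) (σ : Fin G → Bool) (b : Fin (2 ^ G)) : 1 ≤ freq H σ b :=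
  le_add_of_le_left (Nat.one_le_iff_ne_zero.2 (by positivity))

lemma freq_le (H : Hash G B) (σ : Fin G → Bool) (b : Fin (2 ^ G)) :
    freq H σ b ≤ (4 + G) * 2 ^ (2 * B * G) := by
  rw [freq, add_mul]
  refine add_le_add le_rfl ?_
  refine (sum_le_card_nsmul univ _ (2 ^ (2 * B * G)) fun i _ => ?_).trans (le_of_eq (by simp))
  split_ifs
  · exact Nat.pow_le_pow_right (by norm_num) (pos_lt H b i).le
  · exact Nat.zero_le _

lemma fine_bounds (H : Hash G B) (a : Fin (2 ^ G)) : 0 ≤ fine H a ∧ fine H a ≤ G := by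
  refine ⟨sum_nonneg fun i _ => by positivity, ?_⟩
  refine (sum_le_card_nsmul univ _ 1 fun i _ => ?_).trans (le_of_eq (by simp))
  exact inv_le_one_of_one_le₀ (one_le_pow₀ one_le_two)

/-- The idealised phase at level `i`. -/
def ideal (σ : Fin G → Bool) (a b : Fin (2 ^ G)) (i : Fin G) : ℂ :=
  if σ i ∧ pre i a = pre i b then -1 else 1

/-- The phase at level `i` from the same level. -/
def same (H : Hash G B) (σ : Fin G → Bool) (a b : Fin (2 ^ G)) (i : Fin G) : ℂ :=
  if σ i then diag (H i (pre i b)) (H i (pre i a)) else 1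

lemma phase_near (H : Hash G B) (σ : Fin G → Bool) (a b : Fin (2 ^ G)) :
    ‖ph (freq H σ b * fine H a) - ∏ i, same H σ a b i‖
      ≤ 2 * Real.pi * (G * G) * (1 / 2) ^ B := by
  obtain ⟨A, hA⟩ : ∃ A : Fin G → ℝ, A = fun i => ((2 : ℝ) ^ (pos H a i + 1))⁻¹ := ⟨_, rfl⟩
  have e : (freq H σ b : ℝ) * fine H a = ∑ i, ((4 * 2 ^ (2 * B * G) : ℕ) * A i
      + ∑ l, (if σ l then (2 : ℝ) ^ pos H b l else 0) * A i) := by
    rw [freq, fine, hA]
    push_cast
    rw [add_mul, mul_sum, mul_sum, sum_add_distrib]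
    simp only [Finset.sum_mul]
  rw [e, ph_sum]
  have hunit : ∀ i, ‖same H σ a b i‖ ≤ 1 := fun i => by
    unfold same; split_ifs
    · rw [diag, norm_ph]
    · rw [norm_one]
  refine (norm_prod_sub_prod_le _ _ _ (fun i _ => (norm_ph _).le) fun i _ => hunit i).trans ?_
  have hterm : ∀ i, ‖ph ((4 * 2 ^ (2 * B * G) : ℕ) * A i
      + ∑ l, (if σ l then (2 : ℝ) ^ pos H b l else 0) * A i) - same H σ a b i‖
      ≤ 2 * Real.pi * G * (1 / 2) ^ B := by
    intro i
    have hint : ∀ m, pos H a i + 1 ≤ m → ∀ r : ℕ, ph ((r * 2 ^ m : ℕ) * A i) = 1 := by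
      intro m hm r
      obtain ⟨k, hk⟩ := Nat.exists_eq_add_of_le hm
      have : ((r * 2 ^ m : ℕ) : ℝ) * A i = ((r * 2 ^ k : ℕ) : ℝ) := by
        rw [hA]; push_cast; rw [hk, pow_add]; field_simp
      rw [this, ph_nat]
    rw [ph_add, hint _ (pos_lt H a i) 4, one_mul, ph_sum, ← mul_prod_erase univ _ (mem_univ i)]
    have hd : ph ((if σ i then (2 : ℝ) ^ pos H b i else 0) * A i) = same H σ a b i := by
      unfold same
      split_ifs
      · rw [diag, hA]
        simp only [pos, pow_add, pow_one]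
        congr 1
        field_simp
      · rw [zero_mul, ph_zero]
    rw [hd]
    rw [← mul_sub_one, norm_mul]
    refine (mul_le_of_le_one_left (norm_nonneg _) (hunit i)).trans ?_
    have hpr : (1 : ℂ) = ∏ _l ∈ univ.erase i, (1 : ℂ) := prod_const_one.symm
    refine (le_of_eq (congrArg (fun z => ‖_ - z‖) hpr)).trans ?_
    refine (norm_prod_sub_prod_le _ _ _ (fun l _ => (norm_ph _).le) fun l _ => norm_one.le).trans ?_
    refine (sum_le_card_nsmul _ _ (2 * Real.pi * (1 / 2) ^ B) fun l hl => ?_).trans ?_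
    · by_cases hσ : σ l
      swap
      · rw [if_neg hσ, zero_mul, ph_zero, sub_self, norm_zero]; positivity
      rw [if_pos hσ]
      have h1 := (H i (pre i a)).2
      have h2 := (H l (pre l b)).2
      rcases lt_or_gt_of_ne (Finset.ne_of_mem_erase hl) with h | h
      · refine (norm_ph_sub_one_le _).trans (mul_le_mul_of_nonneg_left ?_ Real.two_pi_pos.le)
        have hm : 2 * B * ((l : ℕ) + 1) ≤ 2 * B * i := Nat.mul_le_mul_left _ h
        have hle : pos H b l + B ≤ pos H a i + 1 := by simp only [pos]; linarith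
        rw [hA, abs_of_nonneg (by positivity), mul_inv_le_iff₀ (by positivity), one_div, inv_pow,
          inv_mul_eq_div, le_div_iff₀ (by positivity), ← pow_add]
        exact pow_le_pow_right₀ one_le_two hle
      · have hm : 2 * B * ((i : ℕ) + 1) ≤ 2 * B * l := Nat.mul_le_mul_left _ h
        have hle : pos H a i + 1 ≤ pos H b l := by simp only [pos]; linarith
        have := hint _ hle 1
        push_cast at this
        rw [one_mul] at this
        rw [this, sub_self, norm_zero]; positivity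
    · rw [nsmul_eq_mul, mul_left_comm, ← mul_assoc]
      refine mul_le_mul_of_nonneg_right (mul_le_mul_of_nonneg_left ?_ Real.two_pi_pos.le)
        (by positivity)
      exact_mod_cast (card_erase_le.trans (by simp) : (univ.erase i).card ≤ G)
  refine (sum_le_card_nsmul _ _ _ fun i _ => hterm i).trans (le_of_eq ?_)
  simp; ring

/-- The average phase over the hashes. -/
theorem phase_avg (hB : 0 < B) (σ : Fin G → Bool) (a b : Fin (2 ^ G)) :
    |(∑ H : Hash G B, Real.cos (2 * Real.pi * (freq H σ b * fine H a))) / Fintype.card (Hash G B)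
        - (∏ i, ideal σ a b i).re|
      ≤ 20 * G / B + 2 * Real.pi * (G * G) * (1 / 2) ^ B := by
  have : Nonempty (Fin B) := ⟨⟨0, hB⟩⟩
  obtain ⟨F, hF⟩ : ∃ F : Fin G → (Fin (2 ^ G) → Fin B) → ℂ, F = fun i r =>
      if σ i then diag (r (pre i b)) (r (pre i a)) else 1 := ⟨_, rfl⟩
  obtain ⟨C, hC⟩ : ∃ C : ℝ, C = Fintype.card (Hash G B) := ⟨_, rfl⟩
  have hC0 : 0 < C := hC ▸ Nat.cast_pos.2 Fintype.card_pos
  have hfac : (∑ H : Hash G B, ∏ i, same H σ a b i) / (Fintype.card (Hash G B) : ℂ)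
      = ∏ i, ((∑ r, F i r) / (Fintype.card (Fin (2 ^ G) → Fin B) : ℂ)) := by
    rw [prod_div_distrib, Fintype.prod_sum, Fintype.card_pi, Nat.cast_prod, hF]
    rfl
  have havg : ∀ i, ‖(∑ r, F i r) / (Fintype.card (Fin (2 ^ G) → Fin B) : ℂ) - ideal σ a b i‖
      ≤ 20 / (B : ℝ) := by
    intro i
    have hc : (Fintype.card (Fin (2 ^ G) → Fin B) : ℂ) ≠ 0 :=
      Nat.cast_ne_zero.2 Fintype.card_ne_zero
    by_cases hσ : σ i
    swap
    · simp only [hF, ideal, hσ, false_and, Bool.false_eq_true, if_false, sum_const, nsmul_eq_mul,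
        mul_one, card_univ]
      rw [div_self hc, sub_self, norm_zero]; positivity
    by_cases hp : pre i a = pre i b
    · simp only [hF, ideal, hσ, hp, and_self, if_true, diag_self, sum_const, nsmul_eq_mul,
        card_univ, mul_neg, mul_one]
      rw [neg_div, div_self hc, sub_self, norm_zero]; positivity
    · simp only [hF, ideal, hσ, hp, and_false, if_true, if_false]
      rw [div_sub_one hc, ← card_univ, ← nsmul_one, ← sum_const, ← sum_sub_distrib,
        sum_pi_eval₂ (Ne.symm hp) (fun c d => diag c d - 1)]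
      have hcard : (Fintype.card (Fin (2 ^ G) → Fin B) : ℂ)
          = (Fintype.card ({j : {j : Fin (2 ^ G) // j ≠ pre i b} //
              j ≠ ⟨pre i a, hp⟩} → Fin B) : ℂ) * ((B : ℂ) * B) := by
        have h := sum_pi_eval₂ (β := Fin B) (Ne.symm hp) (fun _ _ => (1 : ℂ))
        simpa using h
      have hc2 : (Fintype.card ({j : {j : Fin (2 ^ G) // j ≠ pre i b} //
              j ≠ ⟨pre i a, hp⟩} → Fin B) : ℂ) ≠ 0 :=
        Nat.cast_ne_zero.2 Fintype.card_ne_zero
      rw [sum_const, nsmul_one, card_univ, hcard, mul_div_mul_left _ _ hc2, norm_div, norm_mul,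
        Complex.norm_natCast]
      have hBr : (0 : ℝ) < B := Nat.cast_pos.2 hB
      rw [div_le_div_iff₀ (by positivity) hBr]
      have h1 : ‖∑ c : Fin B, ∑ d, (diag c d - 1)‖ ≤ B * 20 :=
        ((norm_sum_le _ _).trans (sum_le_card_nsmul _ _ 20 fun c _ => norm_diag_avg_le c)).trans
          (le_of_eq (by simp))
      nlinarith
  have hF1 : ∀ i, ‖(∑ r, F i r) / (Fintype.card (Fin (2 ^ G) → Fin B) : ℂ)‖ ≤ 1 := by
    intro i
    rw [norm_div, Complex.norm_natCast, div_le_one (Nat.cast_pos.2 Fintype.card_pos)]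
    refine (norm_sum_le _ _).trans ((sum_le_card_nsmul _ _ 1 fun r _ => ?_).trans
      (le_of_eq (by simp)))
    simp only [hF]
    split_ifs
    · rw [diag, norm_ph]
    · rw [norm_one]
  have h1 : ‖(∑ H : Hash G B, ph (freq H σ b * fine H a)) / (Fintype.card (Hash G B) : ℂ)
      - ∏ i, ideal σ a b i‖ ≤ 20 * G / B + 2 * Real.pi * (G * G) * (1 / 2) ^ B := by
    refine (norm_sub_le_norm_sub_add_norm_sub _
      ((∑ H : Hash G B, ∏ i, same H σ a b i) / (Fintype.card (Hash G B) : ℂ)) _).trans ?_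
    rw [add_comm (20 * (G : ℝ) / B)]
    refine add_le_add ?_ ?_
    · rw [← sub_div, ← sum_sub_distrib, norm_div, Complex.norm_natCast,
        div_le_iff₀ (Nat.cast_pos.2 Fintype.card_pos)]
      refine (norm_sum_le _ _).trans ((sum_le_card_nsmul _ _ _ fun H _ =>
        phase_near H σ a b).trans (le_of_eq ?_))
      simp; ring
    · rw [hfac]
      refine (norm_prod_sub_prod_le _ _ _ (fun i _ => hF1 i) fun i _ => ?_).trans
        ((sum_le_card_nsmul _ _ _ fun i _ => havg i).trans (le_of_eq (by simp; ring)))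
      unfold ideal; split_ifs <;> simp
  refine le_trans (le_of_eq ?_) ((Complex.abs_re_le_norm _).trans h1)
  rw [Complex.sub_re, Complex.div_natCast_re, Complex.re_sum]
  simp only [ph_re]

end

end Vale.Agent.P091.Sqrt
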