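import Vale.Agent.P091.Sqrt.Weights

/-!
# P091: the Dirichlet kernel on one cell, and partial sums of step functions
-/

namespace Vale.Agent.P091.Sqrt

open Finset MeasureTheory

noncomputable section

/-- The Dirichlet kernel in the variable `x / 2π`. -/
def dker (N : ℕ) (t : ℝ) : ℝ := 1 + 2 * ∑ k ∈ range N, Real.cos (2 * Real.pi * ((k : ℝ) + 1) * t)

lemma continuous_dker (N : ℕ) : Continuous (dker N) := by unfold dker; fun_prop

lemma sin_mul_dker (N : ℕ) (t : ℝ) :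
    Real.sin (Real.pi * t) * dker N t = Real.sin ((2 * (N : ℝ) + 1) * Real.pi * t) := by
  induction N with
  | zero => simp [dker]
  | succ N ih =>
    have e : dker (N + 1) t = dker N t + 2 * Real.cos (2 * Real.pi * ((N : ℝ) + 1) * t) := by
      unfold dker; rw [sum_range_succ]; ring
    rw [e, mul_add, ih]
    push_cast
    rw [show (2 * ((N : ℝ) + 1) + 1) * Real.pi * t
        = 2 * Real.pi * ((N : ℝ) + 1) * t + Real.pi * t by ring,
      show (2 * (N : ℝ) + 1) * Real.pi * t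
        = 2 * Real.pi * ((N : ℝ) + 1) * t - Real.pi * t by ring, Real.sin_add, Real.sin_sub]
    ring

lemma dker_eq (N : ℕ) {t : ℝ} (ht : Real.sin (Real.pi * t) ≠ 0) :
    dker N t = Real.sin (2 * Real.pi * N * t) * Real.cot (Real.pi * t)
      + Real.cos (2 * Real.pi * N * t) := by
  refine mul_left_cancel₀ ht ?_
  rw [sin_mul_dker, Real.cot_eq_cos_div_sin,
    show (2 * (N : ℝ) + 1) * Real.pi * t = 2 * Real.pi * N * t + Real.pi * t by ring, Real.sin_add]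
  field_simp

lemma dker_periodic (N : ℕ) : Function.Periodic (dker N) 1 := by
  intro t
  unfold dker
  congr 1
  congr 1
  refine sum_congr rfl fun k _ => ?_
  rw [show 2 * Real.pi * ((k : ℝ) + 1) * (t + 1)
      = 2 * Real.pi * ((k : ℝ) + 1) * t + ((k + 1 : ℕ) : ℝ) * (2 * Real.pi) by push_cast; ring,
    Real.cos_add_nat_mul_two_pi]

lemma abs_cot_sub_le {d e δ : ℝ} (hd : δ ≤ |Real.sin (Real.pi * d)|)
    (he : δ ≤ |Real.sin (Real.pi * e)|) (hδ : 0 < δ) :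
    |Real.cot (Real.pi * d) - Real.cot (Real.pi * e)| ≤ Real.pi * |e - d| / δ ^ 2 := by
  have hd0 : Real.sin (Real.pi * d) ≠ 0 := abs_pos.1 (hδ.trans_le hd)
  have he0 : Real.sin (Real.pi * e) ≠ 0 := abs_pos.1 (hδ.trans_le he)
  rw [Real.cot_eq_cos_div_sin, Real.cot_eq_cos_div_sin, div_sub_div _ _ hd0 he0, abs_div,
    mul_comm (Real.sin (Real.pi * d)) (Real.cos _),
    show Real.cos (Real.pi * d) * Real.sin (Real.pi * e)
      - Real.cos (Real.pi * e) * Real.sin (Real.pi * d) = Real.sin (Real.pi * (e - d)) by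
        rw [mul_sub, Real.sin_sub]; ring]
  refine div_le_div₀ (by positivity) ?_ (by positivity) ?_
  · refine Real.abs_sin_le_abs.trans (le_of_eq ?_)
    rw [abs_mul, abs_of_pos Real.pi_pos]
  · rw [abs_mul, pow_two]; exact mul_le_mul hd he hδ.le (abs_nonneg _)

variable {G B : ℕ}

/-- The height of the block. -/
def hgt (G B : ℕ) : ℕ := 2 ^ G * 4 ^ (G + 1) * ((4 + G) * 2 ^ (2 * B * G))

lemma hgt_pos (G B : ℕ) : 0 < hgt G B := by unfold hgt; positivity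

/-- The left ends of the intervals. -/
def yst (H : Hash G B) (a : Fin (2 ^ G)) : ℝ := (((a : ℕ) : ℝ) + fine H a / 4 ^ (G + 1)) / 2 ^ G

/-- The width of the intervals. -/
def wid (G B : ℕ) : ℝ := 1 / (2 ^ G * (hgt G B : ℝ))

lemma wid_pos (G B : ℕ) : 0 < wid G B := by
  have := hgt_pos G B
  unfold wid; positivity

/-- The partial sum index of a cell. -/
def deg (H : Hash G B) (σ : Fin G → Bool) (b : Fin (2 ^ G)) : ℕ :=
  2 ^ G * 4 ^ (G + 1) * freq H σ b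

lemma deg_le (H : Hash G B) (σ : Fin G → Bool) (b : Fin (2 ^ G)) : deg H σ b ≤ hgt G B :=
  Nat.mul_le_mul_left _ (freq_le H σ b)

lemma four_pow_big (hG : 4 ≤ G) :
    16 * ((G : ℝ) + 2) ≤ 4 ^ (G + 1) ∧ ((G : ℝ) + 2) * 2 ^ G ≤ 4 ^ (G + 1) ∧
      (2 : ℝ) ^ G * 2 ^ G ≤ 4 ^ (G + 1) := by
  have h2 : ((G : ℝ) + 2) ≤ 2 * 2 ^ G := by
    have : (G : ℝ) ≤ 2 ^ G := by exact_mod_cast Nat.lt_two_pow_self.le
    have : (2 : ℝ) ≤ 2 ^ G := by
      calc (2 : ℝ) = 2 ^ 1 := (pow_one _).symm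
        _ ≤ 2 ^ G := pow_le_pow_right₀ one_le_two (by omega)
    linarith
  have e : (4 : ℝ) ^ (G + 1) = 4 * (2 ^ G * 2 ^ G) := by
    rw [pow_succ, ← mul_pow]; norm_num; ring
  have h16 : (16 : ℝ) ≤ 2 ^ G := by
    calc (16 : ℝ) = 2 ^ 4 := by norm_num
      _ ≤ 2 ^ G := pow_le_pow_right₀ one_le_two hG
  have hp : (0 : ℝ) ≤ 2 ^ G * 2 ^ G := by positivity
  rw [e]
  exact ⟨by nlinarith, by nlinarith, by linarith⟩

/-- On one cell the kernel is a single harmonic with a cotangent weight, up to a constant. -/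
theorem kernel_near (hG : 4 ≤ G) (H : Hash G B) (σ : Fin G → Bool) (a b : Fin (2 ^ G)) {j : ℕ}
    {v y : ℝ} (hj : 4 ^ (G + 1) ≤ 2 * j) (hj' : 4 * (j + 1) ≤ 3 * 4 ^ (G + 1))
    (hv : 0 ≤ v) (hv1 : v ≤ 1) (hy : yst H a ≤ y) (hy1 : y ≤ yst H a + wid G B) :
    |dker (deg H σ b) ((((b : ℕ) : ℝ) + ((j : ℝ) + v) / 4 ^ (G + 1)) / 2 ^ G - y)
      - wgt a b ((j : ℝ) / 4 ^ (G + 1))
        * Real.sin (2 * Real.pi * (freq H σ b * v - freq H σ b * fine H a))| ≤ 400 := by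
  obtain ⟨Q, hQ⟩ : ∃ Q : ℝ, Q = 4 ^ (G + 1) := ⟨_, rfl⟩
  obtain ⟨n, hn⟩ : ∃ n : ℝ, n = 2 ^ G := ⟨_, rfl⟩
  obtain ⟨hbig1, hbig2, -⟩ := four_pow_big hG
  rw [← hQ] at hbig1 hbig2 ⊢
  rw [← hn] at hbig2 ⊢
  have hn0 : 0 < n := hn ▸ by positivity
  have hQ0 : 0 < Q := hQ ▸ by positivity
  have hjr : Q ≤ 2 * (j : ℝ) := hQ ▸ (by exact_mod_cast hj)
  have hjr' : 4 * ((j : ℝ) + 1) ≤ 3 * Q := hQ ▸ (by exact_mod_cast hj')
  have hu0 : 1 / 4 ≤ (j : ℝ) / Q := by rw [le_div_iff₀ hQ0]; linarith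
  have hu1 : (j : ℝ) / Q ≤ 7 / 8 := by rw [div_le_iff₀ hQ0]; linarith
  obtain ⟨f, hf⟩ : ∃ f, f = fine H a := ⟨_, rfl⟩
  obtain ⟨hf0, hf1⟩ := fine_bounds H a
  rw [← hf] at hf0 hf1 ⊢
  obtain ⟨z, hz⟩ : ∃ z, z = (y - yst H a) * n := ⟨_, rfl⟩
  have hz0 : 0 ≤ z := hz ▸ mul_nonneg (by linarith) hn0.le
  have hh : (0 : ℝ) < hgt G B := Nat.cast_pos.2 (hgt_pos G B)
  have hz1 : z * hgt G B ≤ 1 := by
    have : z ≤ wid G B * n := hz ▸ mul_le_mul_of_nonneg_right (by linarith) hn0.le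
    rw [wid, ← hn, div_mul_eq_mul_div, one_mul, le_div_iff₀ (by positivity)] at this
    nlinarith
  have hQh : Q ≤ hgt G B := by
    rw [hQ]
    have : 4 ^ (G + 1) ≤ hgt G B := by
      unfold hgt
      rw [mul_comm (2 ^ G), mul_assoc]
      exact Nat.le_mul_of_pos_right _ (by positivity)
    exact_mod_cast this
  obtain ⟨d, hd⟩ : ∃ d, d = (((b : ℕ) : ℝ) + ((j : ℝ) + v) / Q) / n - y := ⟨_, rfl⟩
  rw [← hd]
  obtain ⟨d0, hd0⟩ : ∃ d0, d0 = offs a b ((j : ℝ) / Q) := ⟨_, rfl⟩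
  have hdd : d = d0 + ((v - f) / Q - z) / n := by
    rw [hd, hd0, offs, hz, yst, ← hQ, ← hn, ← hf]
    field_simp
    ring
  have hzQ : z ≤ 1 / Q := by
    rw [le_div_iff₀ hQ0]
    exact (mul_le_mul_of_nonneg_left hQh hz0).trans hz1
  have hdel : |((v - f) / Q - z) / n| ≤ ((G : ℝ) + 2) / Q / n := by
    rw [abs_div, abs_of_pos hn0]
    refine div_le_div_of_nonneg_right ((abs_sub _ _).trans ?_) hn0.le
    rw [abs_of_nonneg hz0, abs_div, abs_of_pos hQ0]
    have : |v - f| / Q ≤ ((G : ℝ) + 1) / Q :=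
      div_le_div_of_nonneg_right (abs_le.2 ⟨by linarith, by linarith⟩) hQ0.le
    calc |v - f| / Q + z ≤ ((G : ℝ) + 1) / Q + 1 / Q := add_le_add this hzQ
      _ = _ := by ring
  obtain ⟨-, hlo, hhi⟩ := offs_bounds a b hu0 hu1
  rw [← hd0, ← hn] at hlo hhi
  have hsmall : ((G : ℝ) + 2) / Q / n ≤ 1 / (16 * n) := by
    rw [div_div, div_le_div_iff₀ (by positivity) (by positivity)]
    nlinarith
  have he16 : 1 / (8 * n) = 2 * (1 / (16 * n)) := by field_simp; ring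
  have hlo' : 1 / (16 * n) ≤ |d| := by
    have := abs_sub_abs_le_abs_sub d0 d
    rw [show d0 - d = -(((v - f) / Q - z) / n) by rw [hdd]; ring, abs_neg] at this
    linarith
  have hhi' : |d| ≤ 1 - 1 / (16 * n) := by
    have := abs_add_le d0 (((v - f) / Q - z) / n)
    rw [← hdd] at this
    linarith
  have hpos : 0 < 1 / (16 * n) := by positivity
  have hs : 1 / (8 * n) ≤ |Real.sin (Real.pi * d)| := by
    refine le_trans ?_ (two_mul_min_le_abs_sin (by linarith))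
    rw [he16]
    exact mul_le_mul_of_nonneg_left (le_min hlo' (by linarith)) zero_le_two
  have hs0 : 1 / (8 * n) ≤ |Real.sin (Real.pi * d0)| := by
    refine le_trans ?_ (two_mul_min_le_abs_sin (by linarith))
    rw [he16]
    exact mul_le_mul_of_nonneg_left (le_min (by linarith) (by linarith)) zero_le_two
  have hδ : 0 < 1 / (8 * n) := by positivity
  have hcot : |Real.cot (Real.pi * d)| ≤ 8 * n := by
    rw [Real.cot_eq_cos_div_sin, abs_div]
    refine (div_le_div₀ zero_le_one (Real.abs_cos_le_one _) hδ hs).trans (le_of_eq ?_)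
    field_simp
  have h256 : |Real.cot (Real.pi * d) - Real.cot (Real.pi * d0)| ≤ 256 := by
    refine (abs_cot_sub_le hs hs0 hδ).trans ?_
    rw [show d0 - d = -(((v - f) / Q - z) / n) by rw [hdd]; ring, abs_neg, div_le_iff₀ (by positivity)]
    refine (mul_le_mul_of_nonneg_left hdel Real.pi_pos.le).trans ?_
    rw [div_div, mul_div_assoc', div_le_iff₀ (by positivity)]
    have e : 256 * (1 / (8 * n)) ^ 2 * (Q * n) = 4 * (Q / n) := by field_simp; ring
    rw [e, ← mul_div_assoc, le_div_iff₀ hn0, mul_assoc]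
    exact mul_le_mul Real.pi_le_four hbig2 (by positivity) (by norm_num)
  obtain ⟨η, hη⟩ : ∃ η : ℕ, η = freq H σ b := ⟨_, rfl⟩
  rw [← hη]
  have hNd : (deg H σ b : ℝ) * d
      = ((η * 4 ^ (G + 1) * (b : ℕ) + η * j : ℕ) : ℝ) - ((η * 4 ^ (G + 1) * (a : ℕ) : ℕ) : ℝ)
        + ((η : ℝ) * v - η * f - (η * Q) * z) := by
    rw [hdd, hd0, offs, deg, ← hη]
    push_cast
    rw [← hQ, ← hn]
    field_simp
    ring
  have hphase : |Real.sin (2 * Real.pi * (deg H σ b) * d)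
      - Real.sin (2 * Real.pi * (η * v - η * f))| ≤ 8 / n := by
    rw [mul_assoc (2 * Real.pi), hNd]
    obtain ⟨k1, hk1⟩ : ∃ k : ℕ, k = η * 4 ^ (G + 1) * (b : ℕ) + η * j := ⟨_, rfl⟩
    obtain ⟨k2, hk2⟩ : ∃ k : ℕ, k = η * 4 ^ (G + 1) * (a : ℕ) := ⟨_, rfl⟩
    rw [← hk1, ← hk2, show 2 * Real.pi * ((k1 : ℝ) - k2 + ((η : ℝ) * v - η * f - η * Q * z))
      = 2 * Real.pi * ((η : ℝ) * v - η * f - η * Q * z) + (((k1 : ℤ) - k2 : ℤ) : ℝ) * (2 * Real.pi) by
        push_cast; ring, Real.sin_add_int_mul_two_pi]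
    refine (Real.abs_sin_sub_sin_le _ _).trans ?_
    rw [show 2 * Real.pi * ((η : ℝ) * v - η * f - η * Q * z) - 2 * Real.pi * (η * v - η * f)
      = -(2 * Real.pi * (η * Q * z)) by ring, abs_neg, abs_of_nonneg (by positivity)]
    have hle : n * ((η : ℝ) * Q) ≤ hgt G B := by
      have h1 : (deg H σ b : ℝ) ≤ hgt G B := Nat.cast_le.2 (deg_le H σ b)
      refine le_trans (le_of_eq ?_) h1
      rw [deg, ← hη]; push_cast; rw [← hQ, ← hn]; ring
    rw [le_div_iff₀ hn0]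
    calc 2 * Real.pi * (η * Q * z) * n = 2 * Real.pi * (z * (n * (η * Q))) := by ring
      _ ≤ 2 * Real.pi * (z * hgt G B) := by gcongr
      _ ≤ 2 * Real.pi * 1 := by gcongr
      _ ≤ 8 := by linarith [Real.pi_le_four]
  have hsin0 : Real.sin (Real.pi * d) ≠ 0 := abs_pos.1 (hδ.trans_le hs)
  rw [dker_eq _ hsin0, wgt, ← hd0]
  have key : ∀ s1 s2 C C0 c : ℝ, |s1 - s2| ≤ 8 / n → |C| ≤ 8 * n → |s2| ≤ 1 → |C - C0| ≤ 256 →
      |c| ≤ 1 → |s1 * C + c - C0 * s2| ≤ 400 := by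
    intro s1 s2 C C0 c h1 h2 h3 h4 h5
    rw [show s1 * C + c - C0 * s2 = (s1 - s2) * C + s2 * (C - C0) + c by ring]
    refine (abs_add_three _ _ _).trans ?_
    have t1 : |(s1 - s2) * C| ≤ 64 := by
      rw [abs_mul]
      refine (mul_le_mul h1 h2 (abs_nonneg _) (by positivity)).trans (le_of_eq ?_)
      field_simp; norm_num
    have t2 : |s2 * (C - C0)| ≤ 256 := by
      rw [abs_mul]
      exact (mul_le_of_le_one_left (abs_nonneg _) h3).trans h4
    linarith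
  exact key _ _ _ _ _ hphase hcot (Real.abs_sin_le_one _) h256 (Real.abs_cos_le_one _)

/-! ### Step functions -/

/-- Equal intervals of height `h`. -/
def stp {ι : Type*} [Fintype ι] (h w : ℝ) (y : ι → ℝ) (x : ℝ) : ℝ :=
  ∑ a, (Set.Ico (y a) (y a + w)).indicator (fun _ => h) x

/-- The partial sums of `stp`, in closed form. -/
def sst {ι : Type*} [Fintype ι] (h w : ℝ) (y : ι → ℝ) (N : ℕ) (s : ℝ) : ℝ :=
  ∑ a, h * ∫ x in (y a)..(y a + w), dker N (s - x)

lemma continuous_sst {ι : Type*} [Fintype ι] (h w : ℝ) (y : ι → ℝ) (N : ℕ) :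
    Continuous (sst h w y N) := by
  unfold sst
  refine continuous_finsetSum _ fun a _ => continuous_const.mul ?_
  have h : Continuous (Function.uncurry fun s x : ℝ => dker N (s - x)) :=
    (continuous_dker N).comp (continuous_fst.sub continuous_snd)
  exact intervalIntegral.continuous_parametric_intervalIntegral_of_continuous' h _ _

lemma sst_periodic {ι : Type*} [Fintype ι] (h w : ℝ) (y : ι → ℝ) (N : ℕ) :
    Function.Periodic (sst h w y N) 1 := fun s => by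
  unfold sst
  refine sum_congr rfl fun a _ => ?_
  simp only [add_sub_right_comm s 1, (dker_periodic N) _]

/-- The harmonic seen on the cell. -/
def harm (H : Hash G B) (σ : Fin G → Bool) (b : Fin (2 ^ G)) (j : ℕ) (v : ℝ) : ℝ :=
  (∑ a, wgt a b ((j : ℝ) / 4 ^ (G + 1))
    * Real.sin (2 * Real.pi * (freq H σ b * v - freq H σ b * fine H a))) / 2 ^ G

theorem sst_near (hG : 4 ≤ G) (H : Hash G B) (σ : Fin G → Bool) (b : Fin (2 ^ G)) {j : ℕ} {v : ℝ}
    (hj : 4 ^ (G + 1) ≤ 2 * j) (hj' : 4 * (j + 1) ≤ 3 * 4 ^ (G + 1)) (hv : 0 ≤ v) (hv1 : v ≤ 1) :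
    |sst (hgt G B : ℝ) (wid G B) (yst H) (deg H σ b)
        ((((b : ℕ) : ℝ) + ((j : ℝ) + v) / 4 ^ (G + 1)) / 2 ^ G) - harm H σ b j v| ≤ 400 := by
  have hw := wid_pos G B
  have hhw : (hgt G B : ℝ) * wid G B = 1 / 2 ^ G := by
    have : (hgt G B : ℝ) ≠ 0 := Nat.cast_ne_zero.2 (hgt_pos G B).ne'
    unfold wid; field_simp
  rw [sst, harm, sum_div, ← sum_sub_distrib]
  refine (abs_sum_le_sum_abs _ _).trans ((sum_le_card_nsmul _ _ (400 / 2 ^ G) fun a _ => ?_).trans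
    (le_of_eq (by simp; field_simp)))
  obtain ⟨S, hS⟩ : ∃ S, S = (((b : ℕ) : ℝ) + ((j : ℝ) + v) / 4 ^ (G + 1)) / 2 ^ G := ⟨_, rfl⟩
  obtain ⟨c, hc⟩ : ∃ c, c = wgt a b ((j : ℝ) / 4 ^ (G + 1))
    * Real.sin (2 * Real.pi * (freq H σ b * v - freq H σ b * fine H a)) := ⟨_, rfl⟩
  rw [← hS, ← hc]
  have hcont : Continuous fun x => dker (deg H σ b) (S - x) :=
    (continuous_dker _).comp (continuous_const.sub continuous_id)
  have hI : ‖∫ x in yst H a..yst H a + wid G B, (dker (deg H σ b) (S - x) - c)‖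
      ≤ 400 * |yst H a + wid G B - yst H a| := by
    refine intervalIntegral.norm_integral_le_of_norm_le_const fun x hx => ?_
    rw [Set.uIoc_of_le (by linarith)] at hx
    rw [Real.norm_eq_abs, hS, hc]
    exact kernel_near hG H σ a b hj hj' hv hv1 hx.1.le hx.2
  rw [add_sub_cancel_left, abs_of_pos hw, intervalIntegral.integral_sub
    (hcont.intervalIntegrable _ _) intervalIntegrable_const, intervalIntegral.integral_const,
    add_sub_cancel_left, smul_eq_mul, Real.norm_eq_abs] at hI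
  have hh : (0 : ℝ) ≤ hgt G B := Nat.cast_nonneg _
  calc |(hgt G B : ℝ) * (∫ x in yst H a..yst H a + wid G B, dker (deg H σ b) (S - x)) - c / 2 ^ G|
      = |(hgt G B : ℝ) * ((∫ x in yst H a..yst H a + wid G B, dker (deg H σ b) (S - x))
          - wid G B * c)| := by rw [mul_sub, ← mul_assoc, hhw]; ring_nf
    _ ≤ (hgt G B : ℝ) * (400 * wid G B) := by
        rw [abs_mul, abs_of_nonneg hh]; exact mul_le_mul_of_nonneg_left hI hh
    _ = 400 / 2 ^ G := by rw [mul_left_comm, hhw]; ring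

end

end Vale.Agent.P091.Sqrt
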