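import Vale.Agent.P091.Sqrt.Choice
import Vale.Agent.P091.Sqrt.Cover

/-!
# P091: a series of blocks with unbounded partial sums
-/

namespace Vale.Agent.P091.Sqrt

open Finset MeasureTheory Filter
open scoped ENNReal Topology

noncomputable section

theorem diverges (φ : ℝ → ℝ) (hmono : MonotoneOn φ (Set.Ici 0)) (hnn : ∀ u, 0 ≤ u → 0 ≤ φ u)
    (ho : φ =o[atTop] fun u => u * Real.sqrt (Real.log u)) :
    ∃ f : AddCircle (2 * Real.pi) → ℂ, Integrable f AddCircle.haarAddCircle ∧
      Integrable (fun x => φ ‖f x‖) AddCircle.haarAddCircle ∧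
      ∀ᵐ x ∂AddCircle.haarAddCircle, ∀ C : ℝ, ∃ N : ℕ, C < ‖partialSum f N x‖ := by
  -- a monotone gauge on the whole line
  obtain ⟨ψ, hψ⟩ : ∃ ψ : ℝ → ℝ, ψ = fun u => φ (max u 0) := ⟨_, rfl⟩
  have hψm : Monotone ψ := fun u v h => by
    simp only [hψ]
    exact hmono (le_max_right u 0) (le_max_right v 0) (max_le_max h le_rfl)
  have hψ0 : ∀ u, 0 ≤ ψ u := fun u => by simp only [hψ]; exact hnn _ (le_max_right u 0)
  have hex : ∀ ε : ℝ, ∃ U : ℝ, 0 < ε → ∀ u, U ≤ u → ψ u ≤ ε * (u * Real.sqrt (Real.log u)) := by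
    intro ε
    by_cases hε : 0 < ε
    swap
    · exact ⟨0, fun h => absurd h hε⟩
    obtain ⟨U, hU⟩ := eventually_atTop.1 (Asymptotics.isLittleO_iff.1 ho hε)
    refine ⟨max U 0, fun _ u hu => ?_⟩
    have hu0 : 0 ≤ u := (le_max_right U 0).trans hu
    have h := hU u ((le_max_left U 0).trans hu)
    rw [Real.norm_eq_abs, Real.norm_of_nonneg (mul_nonneg hu0 (Real.sqrt_nonneg _))] at h
    simp only [hψ, max_eq_left hu0]
    exact (le_abs_self _).trans h
  choose U hU using hex
  -- the blocks
  have hG4 : ∀ k, 4 ≤ gs U k := fun k => by have := gs_ge U k; omega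
  choose H hH using fun k => measure_good (gs_ge U k)
  obtain ⟨θ, hθ⟩ := exists_shifts (fun k => measurableSet_good (H k))
    (p := 1 / 6000) (by norm_num) (by norm_num) hH
  obtain ⟨F, hFdef⟩ : ∃ F : ℕ → AddCircle (2 * Real.pi) → ℝ,
      F = fun k y => amps U k * blk (H k) (y - θ k) := ⟨_, rfl⟩
  have hFm : ∀ k, Measurable (F k) := fun k => by
    simp only [hFdef]
    exact ((measurable_blk (H k)).comp (measurable_id.sub measurable_const)).const_mul _
  have hF0 : ∀ k y, 0 ≤ F k y := fun k y => by
    simp only [hFdef]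
    exact mul_nonneg (amps_pos U k).le (blk_bounds (hG4 k) (H k) _).1
  have hFi : ∀ k, Integrable (F k) AddCircle.haarAddCircle := fun k => by
    simp only [hFdef]
    exact ((integrable_blk (hG4 k) (H k)).comp_sub_right (θ k)).const_mul _
  have hFmean : ∀ k, ∫ y, F k y ∂AddCircle.haarAddCircle = amps U k := fun k => by
    simp only [hFdef]
    rw [integral_const_mul, integral_sub_right_eq_self (blk (H k)), mean_blk (hG4 k), mul_one]
  have hsumnorm : Summable fun k => ∫ y, ‖F k y‖ ∂AddCircle.haarAddCircle := by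
    refine (summable_amps U).congr fun k => ?_
    rw [← hFmean k]
    exact integral_congr_ae (Filter.Eventually.of_forall fun y => (Real.norm_of_nonneg (hF0 k y)).symm)
  obtain ⟨S, hSdef⟩ : ∃ S : ℕ → Set (AddCircle (2 * Real.pi)),
      S = fun k => (fun y => y - θ k) ⁻¹' supp (H k) := ⟨_, rfl⟩
  have hSm : ∀ k, MeasurableSet (S k) := fun k => by
    simp only [hSdef]
    exact (measurable_id.sub measurable_const) (measurableSet_supp (H k))
  have hSμ : ∀ k, AddCircle.haarAddCircle (S k) ≤ ENNReal.ofReal (1 / ht (gs U k)) := fun k => by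
    have h : AddCircle.haarAddCircle (S k) = AddCircle.haarAddCircle (supp (H k)) := by
      simp only [hSdef, sub_eq_add_neg]
      exact measure_preimage_add_right _ _ _
    rw [h, ← ENNReal.ofReal_toReal (measure_ne_top _ (supp (H k)))]
    exact ENNReal.ofReal_le_ofReal (measure_supp (hG4 k) (H k))
  have hFle : ∀ k y, F k y ≤ (S k).indicator (fun _ => amps U k * ht (gs U k)) y := by
    intro k y
    simp only [hFdef, hSdef]
    have h := mul_le_mul_of_nonneg_left (blk_bounds (hG4 k) (H k) (y - θ k)).2 (amps_pos U k).le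
    refine h.trans (le_of_eq ?_)
    by_cases hy : y - θ k ∈ supp (H k)
    · rw [Set.indicator_of_mem hy, Set.indicator_of_mem (show y ∈ (fun y => y - θ k) ⁻¹' supp (H k) from hy)]
      rfl
    · rw [Set.indicator_of_notMem hy, Set.indicator_of_notMem
        (show y ∉ (fun y => y - θ k) ⁻¹' supp (H k) from hy), mul_zero]
  have hSfin : ∀ᵐ y ∂AddCircle.haarAddCircle, ∀ᶠ k in atTop, y ∉ S k := by
    refine ae_eventually_notMem (ne_top_of_le_ne_top ?_ (ENNReal.tsum_le_tsum hSμ))
    have hsum : Summable fun k => 1 / ht (gs U k) := by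
      refine Summable.of_nonneg_of_le (fun k => (one_div_pos.2 (ht_pos _)).le) (fun k => ?_)
        (summable_amps U)
      rw [div_le_iff₀ (ht_pos _)]
      exact (peak_spec U k).2.2
    rw [← ENNReal.ofReal_tsum_of_nonneg (fun k => (one_div_pos.2 (ht_pos _)).le) hsum]
    exact ENNReal.ofReal_ne_top
  -- the sum
  obtain ⟨g, hgdef⟩ : ∃ g : AddCircle (2 * Real.pi) → ℝ, g = fun y => ∑' k, F k y := ⟨_, rfl⟩
  have hg0 : ∀ y, 0 ≤ g y := fun y => by
    simp only [hgdef]
    exact tsum_nonneg fun k => hF0 k y
  have hfs : ∀ᵐ y ∂AddCircle.haarAddCircle, Summable fun k => F k y := by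
    filter_upwards [hSfin] with y hy
    obtain ⟨K, hK⟩ := eventually_atTop.1 hy
    refine summable_of_ne_finset_zero (s := range K) fun k hk => le_antisymm ?_ (hF0 k y)
    exact (hFle k y).trans (le_of_eq (Set.indicator_of_notMem (hK k (not_lt.1 (by simpa using hk))) _))
  have hgm : AEMeasurable g AddCircle.haarAddCircle := by
    refine aemeasurable_of_tendsto_metrizable_ae atTop
      (f := fun n y => ∑ k ∈ range n, F k y)
      (fun n => (Finset.measurable_sum _ fun k _ => hFm k).aemeasurable) ?_
    filter_upwards [hfs] with y hy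
    simp only [hgdef]
    exact hy.hasSum.tendsto_sum_nat
  have hgle : ∀ᵐ y ∂AddCircle.haarAddCircle, ENNReal.ofReal (g y) ≤ ∑' k, ENNReal.ofReal (F k y) := by
    filter_upwards [hfs] with y hy
    rw [← ENNReal.ofReal_tsum_of_nonneg (fun k => hF0 k y) hy]
    simp only [hgdef]
    exact le_rfl
  have hgi : Integrable g AddCircle.haarAddCircle := by
    refine ⟨hgm.aestronglyMeasurable, ?_⟩
    rw [hasFiniteIntegral_iff_ofReal (Filter.Eventually.of_forall hg0)]
    refine lt_of_le_of_lt (lintegral_mono_ae hgle) ?_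
    rw [lintegral_tsum fun k => (hFm k).ennreal_ofReal.aemeasurable]
    have e : ∀ k, ∫⁻ y, ENNReal.ofReal (F k y) ∂AddCircle.haarAddCircle
        = ENNReal.ofReal (amps U k) := fun k => by
      rw [← ofReal_integral_eq_lintegral_ofReal (hFi k) (Filter.Eventually.of_forall (hF0 k)), hFmean]
    simp only [e]
    rw [← ENNReal.ofReal_tsum_of_nonneg (fun k => (amps_pos U k).le) (summable_amps U)]
    exact ENNReal.ofReal_lt_top
  have hnorm : ∀ y, ‖((g y : ℝ) : ℂ)‖ = g y := fun y => by
    rw [Complex.norm_real, Real.norm_of_nonneg (hg0 y)]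
  refine ⟨fun y => (g y : ℂ), hgi.ofReal, ?_, ?_⟩
  · -- the gauge is integrable
    have hφψ : (fun y => φ ‖((g y : ℝ) : ℂ)‖) = fun y => ψ (g y) := by
      funext y
      rw [hnorm]
      simp only [hψ, max_eq_left (hg0 y)]
    rw [hφψ]
    obtain ⟨R, hR⟩ : ∃ R : ℕ → ℝ, R = fun k => ψ (2 * (amps U k * ht (gs U k))) := ⟨_, rfl⟩
    refine ⟨(hψm.measurable.comp_aemeasurable hgm).aestronglyMeasurable, ?_⟩
    rw [hasFiniteIntegral_iff_ofReal (Filter.Eventually.of_forall fun y => hψ0 _)]
    refine lt_of_le_of_lt (lintegral_mono_ae (g := fun y => ENNReal.ofReal (ψ 0) +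
      ∑' k, (S k).indicator (fun _ => ENNReal.ofReal (R k)) y) ?_) ?_
    · filter_upwards [hSfin] with y hy
      obtain ⟨K, hK⟩ := eventually_atTop.1 hy
      classical
      obtain ⟨s, hs⟩ : ∃ s, s = (range K).filter fun k => y ∈ S k := ⟨_, rfl⟩
      have hzero : ∀ k, k ∉ s → F k y = 0 := fun k hk => le_antisymm ((hFle k y).trans
        (le_of_eq (Set.indicator_of_notMem (fun hm => hk (by
          rw [hs, mem_filter, mem_range]
          exact ⟨lt_of_not_ge fun h => hK k h hm, hm⟩)) _))) (hF0 k y)
      have hgs : g y = ∑ k ∈ s, F k y := by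
        simp only [hgdef]
        exact tsum_eq_sum hzero
      rcases s.eq_empty_or_nonempty with he | hne
      · rw [hgs, he, sum_empty]
        exact le_self_add
      obtain ⟨m, hm, hmax⟩ := s.exists_max_image id hne
      have hmS : y ∈ S m := by
        rw [hs, mem_filter] at hm
        exact hm.2
      have hle : g y ≤ 2 * (amps U m * ht (gs U m)) := by
        rw [hgs]
        refine (sum_le_sum_of_subset_of_nonneg (t := range (m + 1))
          (fun k hk => mem_range.2 (Nat.lt_succ_of_le (hmax k hk))) fun k _ _ => hF0 k y).trans ?_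
        rw [sum_range_succ]
        have h1 : ∑ k ∈ range m, F k y ≤ (tots U m).Q := by
          rw [(tots_eq U m).2.1]
          exact sum_le_sum fun k _ => (hFle k y).trans (Set.indicator_apply_le'
            (fun _ => le_rfl) fun _ => mul_nonneg (amps_pos U k).le (ht_pos _).le)
        have h2 := hFle m y
        rw [Set.indicator_of_mem hmS] at h2
        linarith [(peak_spec U m).1]
      refine le_trans (ENNReal.ofReal_le_ofReal (hψm hle)) (le_add_of_le_right ?_)
      refine le_trans (le_of_eq ?_) (ENNReal.le_tsum m)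
      rw [Set.indicator_of_mem hmS]
      simp only [hR]
    · rw [lintegral_add_left measurable_const, lintegral_const, measure_univ, mul_one,
        lintegral_tsum fun k => (measurable_const.indicator (hSm k)).aemeasurable]
      refine ENNReal.add_lt_top.2 ⟨ENNReal.ofReal_lt_top, ?_⟩
      refine lt_of_le_of_lt (ENNReal.tsum_le_tsum (g := fun k => ENNReal.ofReal ((1 / 2) ^ k))
        fun k => ?_) ?_
      · rw [lintegral_indicator_const (hSm k)]
        refine (mul_le_mul' le_rfl (hSμ k)).trans ?_
        rw [← ENNReal.ofReal_mul (by simp only [hR]; exact hψ0 _)]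
        refine ENNReal.ofReal_le_ofReal ?_
        simp only [hR, mul_one_div]
        exact gauge_spec U hU k
      · rw [← ENNReal.ofReal_tsum_of_nonneg (fun k => by positivity)
          (summable_geometric_of_lt_one (by norm_num) (by norm_num))]
        exact ENNReal.ofReal_lt_top
  · -- the partial sums are unbounded
    filter_upwards [hθ] with x hx C
    obtain ⟨m, hm⟩ := exists_nat_gt C
    obtain ⟨k, hkm, N, hN, hbig⟩ := hx m
    refine ⟨N, ?_⟩
    obtain ⟨T, hT⟩ : ∃ T : ℕ → ℝ, T = fun i => amps U i * bsum (H i) N (unit (x - θ i)) :=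
      ⟨_, rfl⟩
    have hker : ∀ y, ‖ker N (x - y)‖ ≤ 2 * (N : ℝ) + 1 := fun y => abs_dker_le N _
    have hkm' : Measurable fun y => ker N (x - y) :=
      (measurable_ker N).comp (measurable_const.sub measurable_id)
    have hTi : ∀ i, ∫ y, F i y * ker N (x - y) ∂AddCircle.haarAddCircle = T i := fun i => by
      simp only [hFdef, hT, mul_assoc]
      rw [integral_const_mul, sum_blk (hG4 i)]
    have hint : ∀ i, Integrable (fun y => F i y * ker N (x - y)) AddCircle.haarAddCircle := fun i =>
      (hFi i).mul_bdd hkm'.aestronglyMeasurable (Filter.Eventually.of_forall hker)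
    have hsn : Summable fun i => ∫ y, ‖F i y * ker N (x - y)‖ ∂AddCircle.haarAddCircle := by
      refine Summable.of_nonneg_of_le (fun i => integral_nonneg fun y => norm_nonneg _) (fun i => ?_)
        (hsumnorm.mul_right (2 * (N : ℝ) + 1))
      rw [← integral_mul_const]
      refine integral_mono (hint i).norm ((hFi i).norm.mul_const _) fun y => ?_
      simp only [norm_mul]
      exact mul_le_mul_of_nonneg_left (hker y) (norm_nonneg _)
    have hval : ∫ y, g y * ker N (x - y) ∂AddCircle.haarAddCircle = ∑' i, T i := by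
      calc ∫ y, g y * ker N (x - y) ∂AddCircle.haarAddCircle
          = ∫ y, ∑' i, F i y * ker N (x - y) ∂AddCircle.haarAddCircle := by
            simp only [hgdef, tsum_mul_right]
        _ = ∑' i, ∫ y, F i y * ker N (x - y) ∂AddCircle.haarAddCircle :=
            (integral_tsum_of_summable_integral_norm hint hsn).symm
        _ = _ := by simp only [hTi]
    have hTb : ∀ i, |T i| ≤ amps U i * (2 * (N : ℝ) + 1) := fun i => by
      simp only [hT, abs_mul, abs_of_pos (amps_pos U i)]
      refine mul_le_mul_of_nonneg_left ?_ (amps_pos U i).le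
      refine (abs_sst_le_deg (Nat.cast_nonneg _) (wid_pos _ _).le _ N _).trans (le_of_eq ?_)
      have : (hgt (gs U i) (bsz (gs U i)) : ℝ) ≠ 0 := Nat.cast_ne_zero.2 (hgt_pos _ _).ne'
      simp only [Fintype.card_fin, Nat.cast_pow, Nat.cast_ofNat, wid]
      field_simp
    have hTs : Summable T := Summable.of_abs (Summable.of_nonneg_of_le (fun i => abs_nonneg _) hTb
      ((summable_amps U).mul_right _))
    have hearly : |∑ i ∈ range k, T i| ≤ (tots U k).P := by
      rw [(tots_eq U k).1]
      refine (abs_sum_le_sum_abs _ _).trans (sum_le_sum fun i _ => ?_)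
      simp only [hT, abs_mul, abs_of_pos (amps_pos U i)]
      refine mul_le_mul_of_nonneg_left ?_ (amps_pos U i).le
      refine (abs_sst_le (Nat.cast_nonneg _) (wid_pos _ _).le ?_ _ N _).trans (le_of_eq ?_)
      · rw [wid, div_le_one (by have := hgt_pos (gs U i) (bsz (gs U i)); positivity)]
        exact one_le_mul_of_one_le_of_one_le (one_le_pow₀ one_le_two) (ht_ge (gs U i)).2
      · simp only [Fintype.card_fin, Nat.cast_pow, Nat.cast_ofNat, ht]
    have hN' : (N : ℝ) ≤ ht (gs U k) := Nat.cast_le.2 hN
    have htail : |∑' i, T (i + (k + 1))| ≤ 1 := by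
      have hs : Summable fun i => ‖T (i + (k + 1))‖ :=
        ((summable_nat_add_iff (k + 1)).2 hTs).norm
      refine (norm_tsum_le_tsum_norm (f := fun i => T (i + (k + 1))) hs).trans ?_
      have hg : Summable fun i : ℕ => (1 / 2 : ℝ) ^ (i + 1) :=
        (summable_geometric_of_lt_one (by norm_num) (by norm_num)).comp_injective Nat.succ_injective
      refine (hs.tsum_le_tsum (fun i => ?_) hg).trans (le_of_eq ?_)
      · rw [Real.norm_eq_abs]
        refine (hTb _).trans ((tail_spec U (show k < i + (k + 1) by omega) hN').trans ?_)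
        exact pow_le_pow_of_le_one (by norm_num) (by norm_num) (by omega)
      · simp only [pow_succ]
        rw [tsum_mul_right, tsum_geometric_of_lt_one (by norm_num) (by norm_num)]
        norm_num
    have hsplit := hTs.sum_add_tsum_nat_add (k + 1)
    rw [sum_range_succ] at hsplit
    have hTk : amps U k * ((gs U k : ℝ) / 1000) ≤ |T k| := by
      simp only [hT, abs_mul, abs_of_pos (amps_pos U k)]
      exact mul_le_mul_of_nonneg_left hbig (amps_pos U k).le
    have hmain : (k : ℝ) + 1 ≤ |∑' i, T i| := by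
      rw [← hsplit]
      have h3 := abs_add_three (∑ i ∈ range k, T i + T k + ∑' i, T (i + (k + 1)))
        (-∑ i ∈ range k, T i) (-∑' i, T (i + (k + 1)))
      rw [abs_neg, abs_neg, show ∑ i ∈ range k, T i + T k + ∑' i, T (i + (k + 1))
        + -∑ i ∈ range k, T i + -∑' i, T (i + (k + 1)) = T k by ring] at h3
      linarith [main_spec U k, abs_nonneg (∑ i ∈ range k, T i)]
    rw [partialSum_eq hgi, hval, Complex.norm_real, Real.norm_eq_abs]
    have : (m : ℝ) ≤ k := Nat.cast_le.2 hkm
    linarith

end

end Vale.Agent.P091.Sqrt
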