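import Vale.Agent.P091.Sqrt.Hash

/-!
# P091: the kernel weights of one cell and the choice of signs
-/

namespace Vale.Agent.P091.Sqrt

open Finset

noncomputable section

lemma two_mul_min_le_abs_sin {d : ℝ} (hd : |d| ≤ 1) :
    2 * min |d| (1 - |d|) ≤ |Real.sin (Real.pi * d)| := by
  have habs : |Real.sin (Real.pi * d)| = |Real.sin (Real.pi * |d|)| := by
    rcases abs_choice d with h | h <;> rw [h]
    rw [mul_neg, Real.sin_neg, abs_neg]
  rw [habs]
  refine le_trans ?_ (le_abs_self _)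
  have hπ := Real.pi_pos
  have key : ∀ t : ℝ, 0 ≤ t → t ≤ 1 / 2 → 2 * t ≤ Real.sin (Real.pi * t) := fun t h0 h1 => by
    refine le_trans (le_of_eq ?_) (Real.mul_le_sin (by positivity) (by nlinarith))
    field_simp
  rcases le_total |d| (1 / 2) with h | h
  · rw [min_eq_left (by linarith)]; exact key _ (abs_nonneg d) h
  · rw [min_eq_right (by linarith)]
    refine (key (1 - |d|) (by linarith) (by linarith)).trans (le_of_eq ?_)
    rw [mul_sub, mul_one, Real.sin_pi_sub]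

lemma abs_cot_le {d : ℝ} (hd : |d| < 1) (hd0 : d ≠ 0) :
    |Real.cot (Real.pi * d)| ≤ (1 / |d| + 1 / (1 - |d|)) / 2 := by
  have h0 : 0 < |d| := abs_pos.2 hd0
  have h1 : 0 < 1 - |d| := by linarith
  have hm : 0 < min |d| (1 - |d|) := lt_min h0 h1
  rw [Real.cot_eq_cos_div_sin, abs_div]
  refine (div_le_div₀ zero_le_one (Real.abs_cos_le_one _) (mul_pos two_pos hm)
    (two_mul_min_le_abs_sin hd.le)).trans ?_
  have : 1 / min |d| (1 - |d|) ≤ 1 / |d| + 1 / (1 - |d|) := by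
    rcases le_total |d| (1 - |d|) with h | h
    · rw [min_eq_left h]; exact le_add_of_nonneg_right (by positivity)
    · rw [min_eq_right h]; exact le_add_of_nonneg_left (by positivity)
  calc 1 / (2 * min |d| (1 - |d|)) = 1 / min |d| (1 - |d|) / 2 := by field_simp
    _ ≤ _ := by linarith

lemma cot_ge {d : ℝ} (h0 : 0 < d) (h1 : d ≤ 1 / 3) : 1 / (2 * (Real.pi * d)) ≤ Real.cot (Real.pi * d) := by
  have hπ := Real.pi_pos
  have hs0 : 0 < Real.sin (Real.pi * d) := Real.sin_pos_of_pos_of_lt_pi (by positivity) (by nlinarith)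
  have hc : 1 / 2 ≤ Real.cos (Real.pi * d) := by
    rw [← Real.cos_pi_div_three]
    exact Real.cos_le_cos_of_nonneg_of_le_pi (by positivity) (by linarith) (by nlinarith)
  rw [Real.cot_eq_cos_div_sin, le_div_iff₀ hs0, div_mul_eq_mul_div, one_mul,
    div_le_iff₀ (by positivity)]
  nlinarith [Real.sin_le (show 0 ≤ Real.pi * d by positivity), mul_pos hπ h0]

/-- The harmonic sum. -/
def hsum (n : ℕ) : ℝ := ∑ k ∈ range n, 1 / ((k : ℝ) + 1)

lemma hsum_eq (n : ℕ) : hsum n = (harmonic n : ℝ) := by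
  simp [hsum, harmonic]

lemma sum_inv_le_hsum {ι : Type*} (S : Finset ι) {n : ℕ} (f : ι → ℕ) (hf : ∀ a ∈ S, f a < n)
    (hinj : Set.InjOn f S) : ∑ a ∈ S, 1 / ((f a : ℝ) + 1) ≤ hsum n := by
  classical
  rw [← sum_image (f := fun k : ℕ => 1 / ((k : ℝ) + 1)) hinj]
  refine sum_le_sum_of_subset_of_nonneg (fun k hk => ?_) fun k _ _ => by positivity
  obtain ⟨a, ha, rfl⟩ := mem_image.1 hk
  exact mem_range.2 (hf a ha)

variable {G : ℕ}

/-- The offset of `a` from the point `(b + u) / n`. -/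
def offs (a b : Fin (2 ^ G)) (u : ℝ) : ℝ := (((b : ℕ) : ℝ) - (a : ℕ) + u) / 2 ^ G

/-- The weight of `a` seen from `(b + u) / n`. -/
def wgt (a b : Fin (2 ^ G)) (u : ℝ) : ℝ := Real.cot (Real.pi * offs a b u)

lemma offs_bounds (a b : Fin (2 ^ G)) {u : ℝ} (h0 : 1 / 4 ≤ u) (h1 : u ≤ 7 / 8) :
    offs a b u ≠ 0 ∧ 1 / (8 * 2 ^ G) ≤ |offs a b u| ∧ |offs a b u| ≤ 1 - 1 / (8 * 2 ^ G) := by
  have hn : (0 : ℝ) < 2 ^ G := by positivity
  have ha : ((a : ℕ) : ℝ) + 1 ≤ 2 ^ G := by exact_mod_cast a.2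
  have hb : ((b : ℕ) : ℝ) + 1 ≤ 2 ^ G := by exact_mod_cast b.2
  have ha0 : (0 : ℝ) ≤ (a : ℕ) := Nat.cast_nonneg _
  have hb0 : (0 : ℝ) ≤ (b : ℕ) := Nat.cast_nonneg _
  have hlo : 1 / 8 ≤ |((b : ℕ) : ℝ) - (a : ℕ) + u| := by
    rcases le_or_gt (a : ℕ) (b : ℕ) with h | h
    · have : ((a : ℕ) : ℝ) ≤ (b : ℕ) := Nat.cast_le.2 h
      exact le_abs.2 (Or.inl (by linarith))
    · have : ((b : ℕ) : ℝ) + 1 ≤ (a : ℕ) := by exact_mod_cast h
      exact le_abs.2 (Or.inr (by linarith))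
  have hhi : |((b : ℕ) : ℝ) - (a : ℕ) + u| ≤ 2 ^ G - 1 / 8 := abs_le.2 ⟨by linarith, by linarith⟩
  have e : |offs a b u| = |((b : ℕ) : ℝ) - (a : ℕ) + u| / 2 ^ G := by
    rw [offs, abs_div, abs_of_pos hn]
  have e1 : 1 / (8 * (2 : ℝ) ^ G) = 1 / 8 / 2 ^ G := by field_simp
  refine ⟨?_, ?_, ?_⟩
  · rw [offs, div_ne_zero_iff]
    exact ⟨fun h => by rw [h] at hlo; norm_num at hlo, hn.ne'⟩
  · rw [e, e1]; exact div_le_div_of_nonneg_right hlo hn.le
  · rw [e, e1, le_sub_iff_add_le, ← add_div, div_le_one hn]; linarith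

/-- The total weight is of order `G`. -/
lemma sum_abs_wgt_le (b : Fin (2 ^ G)) {u : ℝ} (h0 : 1 / 4 ≤ u) (h1 : u ≤ 3 / 4) :
    (∑ a, |wgt a b u|) / 2 ^ G ≤ 8 * ((G : ℝ) + 1) := by
  have hn : (0 : ℝ) < 2 ^ G := by positivity
  have hH : hsum (2 ^ G) ≤ (G : ℝ) + 1 := by
    rw [hsum_eq]
    refine (harmonic_le_one_add_log _).trans ?_
    rw [Nat.cast_pow, Real.log_pow, Nat.cast_ofNat]
    nlinarith [Real.log_two_lt_d9, Nat.cast_nonneg (α := ℝ) G]
  obtain ⟨L, hL⟩ : ∃ L : Finset (Fin (2 ^ G)), L = univ.filter fun a : Fin (2 ^ G) => (a : ℕ) ≤ b := ⟨_, rfl⟩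
  have hmemL : ∀ a, a ∈ L ↔ (a : ℕ) ≤ b := fun a => by simp [hL]
  have hmemR : ∀ a, a ∈ Lᶜ ↔ (b : ℕ) < a := fun a => by simp [hL]
  have hA : ∀ a ∈ L, |wgt a b u| / 2 ^ G
      ≤ 2 * (1 / (((b : ℕ) - a : ℕ) + 1 : ℝ)) + 2 * (1 / ((2 ^ G - 1 - ((b : ℕ) - a) : ℕ) + 1 : ℝ)) := by
    intro a ha
    rw [hmemL] at ha
    obtain ⟨hne, hlo, hhi⟩ := offs_bounds a b h0 (by linarith)
    refine (div_le_div_of_nonneg_right (abs_cot_le (hhi.trans_lt (by
      have : 0 < 1 / (8 * (2 : ℝ) ^ G) := by positivity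
      linarith)) hne) hn.le).trans ?_
    obtain ⟨k, hk⟩ : ∃ k, k = (b : ℕ) - a := ⟨_, rfl⟩
    have hk1 : k + 1 ≤ 2 ^ G := by have := b.2; omega
    have hkr : (k : ℝ) + 1 ≤ 2 ^ G := by exact_mod_cast hk1
    have hk2 : ((2 ^ G - 1 - k : ℕ) : ℝ) + 1 = 2 ^ G - k := by
      rw [Nat.cast_sub (by omega), Nat.cast_sub Nat.one_le_two_pow]; push_cast; ring
    have e : |offs a b u| = ((k : ℝ) + u) / 2 ^ G := by
      rw [offs, abs_div, abs_of_pos hn, hk, Nat.cast_sub ha, abs_of_nonneg]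
      have : ((a : ℕ) : ℝ) ≤ (b : ℕ) := Nat.cast_le.2 ha
      linarith
    rw [← hk, hk2, e, one_sub_div hn.ne']
    have p1 : 0 < (k : ℝ) + u := by positivity
    have p2 : 0 < (2 : ℝ) ^ G - ((k : ℝ) + u) := by linarith
    rw [one_div_div, one_div_div, div_div, div_le_iff₀ (by positivity)]
    have q1 : (2 : ℝ) ^ G / (k + u) ≤ 4 * (2 ^ G * (1 / (k + 1))) := by
      rw [div_le_iff₀ p1]
      have : 1 ≤ 4 * ((k : ℝ) + u) / (k + 1) := by
        rw [one_le_div (by positivity)]; linarith [Nat.cast_nonneg (α := ℝ) k]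
      calc (2 : ℝ) ^ G = 2 ^ G * 1 := (mul_one _).symm
        _ ≤ 2 ^ G * (4 * ((k : ℝ) + u) / (k + 1)) := mul_le_mul_of_nonneg_left this hn.le
        _ = _ := by ring
    have q2 : (2 : ℝ) ^ G / (2 ^ G - (k + u)) ≤ 4 * (2 ^ G * (1 / (2 ^ G - k))) := by
      rw [div_le_iff₀ p2]
      have : 1 ≤ 4 * ((2 : ℝ) ^ G - (k + u)) / (2 ^ G - k) := by
        rw [one_le_div (by linarith)]; linarith
      calc (2 : ℝ) ^ G = 2 ^ G * 1 := (mul_one _).symm
        _ ≤ 2 ^ G * (4 * ((2 : ℝ) ^ G - (k + u)) / (2 ^ G - k)) := mul_le_mul_of_nonneg_left this hn.le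
        _ = _ := by ring
    linarith
  have hB : ∀ a ∈ Lᶜ, |wgt a b u| / 2 ^ G
      ≤ 2 * (1 / (((a : ℕ) - b - 1 : ℕ) + 1 : ℝ)) + 2 * (1 / ((2 ^ G - 1 - ((a : ℕ) - b) : ℕ) + 1 : ℝ)) := by
    intro a ha
    rw [hmemR] at ha
    obtain ⟨hne, hlo, hhi⟩ := offs_bounds a b h0 (by linarith)
    refine (div_le_div_of_nonneg_right (abs_cot_le (hhi.trans_lt (by
      have : 0 < 1 / (8 * (2 : ℝ) ^ G) := by positivity
      linarith)) hne) hn.le).trans ?_
    obtain ⟨k, hk⟩ : ∃ k, k = (a : ℕ) - b := ⟨_, rfl⟩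
    have hk0 : 1 ≤ k := by omega
    have hk1 : k + 1 ≤ 2 ^ G := by have := a.2; omega
    have hkr : (k : ℝ) + 1 ≤ 2 ^ G := by exact_mod_cast hk1
    have hk0r : (1 : ℝ) ≤ k := by exact_mod_cast hk0
    have hk2 : ((2 ^ G - 1 - k : ℕ) : ℝ) + 1 = 2 ^ G - k := by
      rw [Nat.cast_sub (by omega), Nat.cast_sub Nat.one_le_two_pow]; push_cast; ring
    have e : |offs a b u| = ((k : ℝ) - u) / 2 ^ G := by
      rw [offs, abs_div, abs_of_pos hn, hk, Nat.cast_sub ha.le, abs_of_nonpos]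
      · ring
      · have : ((b : ℕ) : ℝ) + 1 ≤ (a : ℕ) := by exact_mod_cast ha
        linarith
    rw [← hk, Nat.cast_sub hk0, Nat.cast_one, sub_add_cancel, hk2, e, one_sub_div hn.ne']
    have p1 : 0 < (k : ℝ) - u := by linarith
    have p2 : 0 < (2 : ℝ) ^ G - ((k : ℝ) - u) := by linarith
    rw [one_div_div, one_div_div, div_div, div_le_iff₀ (by positivity)]
    have q1 : (2 : ℝ) ^ G / (k - u) ≤ 4 * (2 ^ G * (1 / k)) := by
      rw [div_le_iff₀ p1]
      have : 1 ≤ 4 * ((k : ℝ) - u) / k := by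
        rw [one_le_div (by linarith)]; linarith
      calc (2 : ℝ) ^ G = 2 ^ G * 1 := (mul_one _).symm
        _ ≤ 2 ^ G * (4 * ((k : ℝ) - u) / k) := mul_le_mul_of_nonneg_left this hn.le
        _ = _ := by ring
    have q2 : (2 : ℝ) ^ G / (2 ^ G - (k - u)) ≤ 4 * (2 ^ G * (1 / (2 ^ G - k))) := by
      rw [div_le_iff₀ p2]
      have : 1 ≤ 4 * ((2 : ℝ) ^ G - (k - u)) / (2 ^ G - k) := by
        rw [one_le_div (by linarith)]; linarith
      calc (2 : ℝ) ^ G = 2 ^ G * 1 := (mul_one _).symm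
        _ ≤ 2 ^ G * (4 * ((2 : ℝ) ^ G - (k - u)) / (2 ^ G - k)) := mul_le_mul_of_nonneg_left this hn.le
        _ = _ := by ring
    linarith
  have s1 := sum_inv_le_hsum L (n := 2 ^ G) (fun a => (b : ℕ) - a) (fun a _ => by have := b.2; omega)
    (fun a ha a' ha' h => Fin.ext (by
      rw [mem_coe, hmemL] at ha ha'
      dsimp only at h
      omega))
  have s2 := sum_inv_le_hsum L (n := 2 ^ G) (fun a => 2 ^ G - 1 - ((b : ℕ) - a))
    (fun a _ => by have := b.2; omega)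
    (fun a ha a' ha' h => Fin.ext (by
      rw [mem_coe, hmemL] at ha ha'
      dsimp only at h
      have := b.2
      omega))
  have s3 := sum_inv_le_hsum Lᶜ (n := 2 ^ G) (fun a => (a : ℕ) - b - 1)
    (fun a _ => by have := a.2; omega)
    (fun a ha a' ha' h => Fin.ext (by
      rw [mem_coe, hmemR] at ha ha'
      dsimp only at h
      omega))
  have s4 := sum_inv_le_hsum Lᶜ (n := 2 ^ G) (fun a => 2 ^ G - 1 - ((a : ℕ) - b))
    (fun a _ => by have := a.2; omega)
    (fun a ha a' ha' h => Fin.ext (by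
      rw [mem_coe, hmemR] at ha ha'
      dsimp only at h
      have := a.2
      have := a'.2
      omega))
  rw [sum_div, ← sum_add_sum_compl L]
  refine (add_le_add (sum_le_sum hA) (sum_le_sum hB)).trans ?_
  simp only [sum_add_distrib, ← mul_sum]
  linarith

/-! ### Signs -/

/-- The signs whose partial parities follow `v`. -/
def sig (v : ℕ → Bool) (i : Fin G) : Bool := xor (v i) (v ((i : ℕ) + 1))

/-- The sign of a Boolean. -/
def sg (x : Bool) : ℝ := if x then -1 else 1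

lemma sg_mul (x y : Bool) : sg x * sg y = sg (xor x y) := by
  cases x <;> cases y <;> norm_num [sg]

lemma sig_prod (v : ℕ → Bool) (c : ℕ) :
    ∏ i ∈ range c, sg (xor (v i) (v (i + 1))) = sg (v 0) * sg (v c) := by
  induction c with
  | zero => rw [prod_range_zero, sg_mul, Bool.xor_self]; rfl
  | succ c ih =>
    rw [prod_range_succ, ih, ← sg_mul]
    have : sg (v c) * sg (v c) = 1 := by cases v c <;> norm_num [sg]
    linear_combination (sg (v 0) * sg (v (c + 1))) * this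

/-- The number of levels two points share. -/
def meetN (a b : Fin (2 ^ G)) : ℕ :=
  ((range G).filter fun i => (a : ℕ) / 2 ^ (G - 1 - i) = (b : ℕ) / 2 ^ (G - 1 - i)).card

lemma meet_spec (a b : Fin (2 ^ G)) :
    meetN a b ≤ G ∧ ∀ i < G,
      ((a : ℕ) / 2 ^ (G - 1 - i) = (b : ℕ) / 2 ^ (G - 1 - i) ↔ i < meetN a b) := by
  have hdown : ∀ i j, i ≤ j → j < G →
      (a : ℕ) / 2 ^ (G - 1 - j) = (b : ℕ) / 2 ^ (G - 1 - j) →
      (a : ℕ) / 2 ^ (G - 1 - i) = (b : ℕ) / 2 ^ (G - 1 - i) := by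
    intro i j hij hj h
    have e : 2 ^ (G - 1 - i) = 2 ^ (G - 1 - j) * 2 ^ (j - i) := by
      rw [← pow_add]; congr 1; omega
    rw [e, ← Nat.div_div_eq_div_mul, ← Nat.div_div_eq_div_mul, h]
  obtain ⟨S, hS⟩ : ∃ S : Finset ℕ,
      S = (range G).filter fun i => (a : ℕ) / 2 ^ (G - 1 - i) = (b : ℕ) / 2 ^ (G - 1 - i) := ⟨_, rfl⟩
  have hc : meetN a b = S.card := by rw [meetN, hS]
  refine ⟨hc ▸ hS ▸ (card_filter_le _ _).trans (by simp), fun i hi => ?_⟩
  rw [hc]
  constructor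
  · intro h
    have : range (i + 1) ⊆ S := fun j hj => by
      rw [mem_range] at hj
      rw [hS, mem_filter, mem_range]
      exact ⟨by omega, hdown j i (by omega) hi h⟩
    have := card_le_card this
    rw [card_range] at this
    omega
  · intro h
    by_contra hne
    have : S ⊆ range i := fun j hj => by
      rw [hS, mem_filter, mem_range] at hj
      rw [mem_range]
      by_contra hji
      exact hne (hdown i j (by omega) hj.1 hj.2)
    have := card_le_card this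
    rw [card_range] at this
    omega

lemma ideal_prod (v : ℕ → Bool) (a b : Fin (2 ^ G)) :
    (∏ i, ideal (sig v) a b i).re = sg (v 0) * sg (v (meetN a b)) := by
  obtain ⟨hG, hspec⟩ := meet_spec a b
  have h : ∀ i : Fin G, ideal (sig v) a b i
      = (((if (i : ℕ) < meetN a b then sg (xor (v i) (v ((i : ℕ) + 1))) else 1) : ℝ) : ℂ) := by
    intro i
    have hiff : pre i a = pre i b ↔ (i : ℕ) < meetN a b := by
      rw [← hspec i i.2, Fin.ext_iff]; rfl
    by_cases hl : (i : ℕ) < meetN a b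
    · rw [if_pos hl]
      unfold ideal sig
      simp only [hiff.2 hl, and_true]
      cases xor (v i) (v ((i : ℕ) + 1)) <;> simp [sg]
    · rw [if_neg hl]
      unfold ideal
      simp [mt hiff.1 hl]
  rw [prod_congr rfl fun i _ => h i, ← Complex.ofReal_prod, Complex.ofReal_re,
    Fin.prod_univ_eq_prod_range
      (fun i => if i < meetN a b then sg (xor (v i) (v (i + 1))) else 1) G,
    ← prod_filter, ← sig_prod v (meetN a b)]
  congr 1
  ext i
  simp only [mem_filter, mem_range]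
  omega

/-- The side of `b` at the branching of level `c`. -/
def side (b : Fin (2 ^ G)) (c : ℕ) : Bool :=
  if G ≤ c then true else decide ((b : ℕ) / 2 ^ (G - 1 - c) % 2 = 1)

/-- The first choice of signs. -/
def vplus (b : Fin (2 ^ G)) (c : ℕ) : Bool := if c = 0 then false else !side b c

/-- The second choice of signs. -/
def vminus (b : Fin (2 ^ G)) (c : ℕ) : Bool := if c = 0 then false else side b c

lemma side_spec (a b : Fin (2 ^ G)) (h : meetN a b ≠ 0) :
    side b (meetN a b) = decide ((a : ℕ) ≤ b) := by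
  obtain ⟨hG, hspec⟩ := meet_spec a b
  obtain ⟨c, hc⟩ : ∃ c, c = meetN a b := ⟨_, rfl⟩
  rw [← hc] at hG hspec h ⊢
  have heq : (a : ℕ) / 2 ^ (G - c) = (b : ℕ) / 2 ^ (G - c) := by
    have := (hspec (c - 1) (by omega)).2 (by omega)
    rwa [show G - 1 - (c - 1) = G - c by omega] at this
  unfold side
  rcases hG.eq_or_lt with he | hlt
  · subst he
    rw [if_pos le_rfl]
    simp only [Nat.sub_self, pow_zero, Nat.div_one] at heq
    simp [heq]
  · rw [if_neg (not_le.2 hlt)]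
    have hne : ¬ (a : ℕ) / 2 ^ (G - 1 - c) = (b : ℕ) / 2 ^ (G - 1 - c) := fun e =>
      absurd ((hspec c hlt).1 e) (lt_irrefl _)
    rw [show G - c = G - 1 - c + 1 by omega, pow_succ, ← Nat.div_div_eq_div_mul,
      ← Nat.div_div_eq_div_mul] at heq
    congr 1
    apply propext
    constructor
    · intro hodd
      by_contra hlt'
      have := Nat.div_le_div_right (c := 2 ^ (G - 1 - c)) (le_of_not_ge hlt')
      omega
    · intro hle
      have := Nat.div_le_div_right (c := 2 ^ (G - 1 - c)) hle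
      omega

/-- The difference of the two ideal phases against the weight. -/
def contrast (a b : Fin (2 ^ G)) (u : ℝ) : ℝ :=
  wgt a b u * ((∏ i, ideal (sig (vplus b)) a b i).re - (∏ i, ideal (sig (vminus b)) a b i).re)

lemma contrast_eq (a b : Fin (2 ^ G)) {u : ℝ} (h0 : 0 < u) (h1 : u < 1) :
    contrast a b u = if meetN a b = 0 then 0 else 2 * |wgt a b u| := by
  rw [contrast, ideal_prod, ideal_prod]
  by_cases h : meetN a b = 0
  · simp [h, vplus, vminus]
  rw [if_neg h]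
  have hs := side_spec a b h
  simp only [vplus, vminus, if_neg h, if_pos, hs]
  obtain ⟨hG, hspec⟩ := meet_spec a b
  -- both points lie in the same half
  have hhalf : (a : ℕ) / 2 ^ (G - 1) = (b : ℕ) / 2 ^ (G - 1) := by
    simpa using (hspec 0 (by omega)).2 (Nat.pos_of_ne_zero h)
  have hG1 : 1 ≤ G := by omega
  have hp : 2 ^ G = 2 * 2 ^ (G - 1) := by rw [← pow_succ']; congr 1; omega
  have hn : (0 : ℝ) < 2 ^ G := by positivity
  have hd1 : (a : ℕ) < (b : ℕ) + 2 ^ (G - 1) ∧ (b : ℕ) < (a : ℕ) + 2 ^ (G - 1) := by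
    have := Nat.div_add_mod (a : ℕ) (2 ^ (G - 1))
    have := Nat.div_add_mod (b : ℕ) (2 ^ (G - 1))
    have := Nat.mod_lt (a : ℕ) (show 2 ^ (G - 1) > 0 by positivity)
    have := Nat.mod_lt (b : ℕ) (show 2 ^ (G - 1) > 0 by positivity)
    rw [hhalf] at *
    omega
  have hq1 : ((a : ℕ) : ℝ) + 1 ≤ (b : ℕ) + (2 : ℝ) ^ (G - 1) := by exact_mod_cast hd1.1
  have hq2 : ((b : ℕ) : ℝ) + 1 ≤ (a : ℕ) + (2 : ℝ) ^ (G - 1) := by exact_mod_cast hd1.2
  have hpr : (2 : ℝ) ^ G = 2 * 2 ^ (G - 1) := by exact_mod_cast hp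
  have hπ := Real.pi_pos
  by_cases hle : (a : ℕ) ≤ b
  · have hle' : ((a : ℕ) : ℝ) ≤ (b : ℕ) := Nat.cast_le.2 hle
    have hd0 : 0 < offs a b u := div_pos (by linarith) hn
    have hd2 : offs a b u < 1 / 2 := by
      rw [offs, div_lt_iff₀ hn]; linarith
    have hw : 0 ≤ wgt a b u := by
      rw [wgt, Real.cot_eq_cos_div_sin]
      refine div_nonneg (Real.cos_nonneg_of_mem_Icc ⟨by nlinarith, by nlinarith⟩) ?_
      exact Real.sin_nonneg_of_nonneg_of_le_pi (by positivity) (by nlinarith)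
    simp only [hle, decide_true, Bool.not_true, abs_of_nonneg hw, sg, Bool.false_eq_true, if_false,
      if_true]
    ring
  · have hle' : ((b : ℕ) : ℝ) + 1 ≤ (a : ℕ) := by exact_mod_cast not_le.1 hle
    have hd0 : offs a b u < 0 := div_neg_of_neg_of_pos (by linarith) hn
    have hd2 : -(1 / 2) < offs a b u := by
      rw [offs, lt_div_iff₀ hn]; linarith
    have hw : wgt a b u ≤ 0 := by
      rw [wgt, Real.cot_eq_cos_div_sin]
      refine div_nonpos_of_nonneg_of_nonpos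
        (Real.cos_nonneg_of_mem_Icc ⟨by nlinarith, by nlinarith⟩) ?_
      exact Real.sin_nonpos_of_nonpos_of_neg_pi_le (by nlinarith) (by nlinarith)
    simp only [hle, decide_false, Bool.not_false, abs_of_nonpos hw, sg, Bool.false_eq_true,
      if_false, if_true]
    ring

/-- The contrast is of order `G`. -/
lemma contrast_ge (hG : 20 ≤ G) (b : Fin (2 ^ G)) {u : ℝ} (h0 : 0 < u) (h1 : u < 1) :
    (G : ℝ) / 10 ≤ (∑ a, contrast a b u) / 2 ^ G := by
  have hn : (0 : ℝ) < 2 ^ G := by positivity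
  obtain ⟨m, hm⟩ : ∃ m, m = 2 ^ (G - 2) := ⟨_, rfl⟩
  have hm4 : 2 ^ G = 4 * m := by
    rw [hm, show (4 : ℕ) = 2 ^ 2 by norm_num, ← pow_add]; congr 1; omega
  have hm2 : 2 ^ (G - 1) = 2 * m := by
    rw [hm, ← pow_succ']; congr 1; omega
  have hm1 : 16 ≤ m := by
    rw [hm]; exact le_trans (by norm_num) (Nat.pow_le_pow_right (by norm_num) (show 4 ≤ G - 2 by omega))
  -- the side with room for `m` neighbours
  obtain ⟨f, hf⟩ : ∃ f : ℕ → ℕ, (∀ k < m, f k < 2 ^ G ∧ f k / 2 ^ (G - 1) = (b : ℕ) / 2 ^ (G - 1)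
      ∧ ((f k : ℕ) + (k + 1) = b ∨ (b : ℕ) + (k + 1) = f k)) := by
    by_cases hb : (b : ℕ) % 2 ^ (G - 1) + m < 2 ^ (G - 1)
    · refine ⟨fun k => (b : ℕ) + (k + 1), fun k hk => ⟨?_, ?_, Or.inr rfl⟩⟩
      · have h1 := Nat.div_add_mod (b : ℕ) (2 ^ (G - 1))
        have h2 : (b : ℕ) / 2 ^ (G - 1) < 2 := by
          rw [Nat.div_lt_iff_lt_mul (by positivity)]; have := b.2; omega
        have h3 : 2 ^ (G - 1) * ((b : ℕ) / 2 ^ (G - 1)) ≤ 2 ^ (G - 1) * 1 :=
          Nat.mul_le_mul_left _ (by omega)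
        dsimp only
        omega
      · dsimp only
        have h1 := Nat.div_add_mod (b : ℕ) (2 ^ (G - 1))
        refine Nat.div_eq_of_lt_le ?_ ?_
        · rw [mul_comm]; omega
        · rw [add_mul, one_mul, mul_comm]; omega
    · refine ⟨fun k => (b : ℕ) - (k + 1), fun k hk => ⟨?_, ?_, Or.inl ?_⟩⟩
      · dsimp only; have := b.2; omega
      · dsimp only
        have h1 := Nat.div_add_mod (b : ℕ) (2 ^ (G - 1))
        have h4 := Nat.mod_lt (b : ℕ) (show 2 ^ (G - 1) > 0 by positivity)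
        refine Nat.div_eq_of_lt_le ?_ ?_
        · rw [mul_comm]; omega
        · rw [add_mul, one_mul, mul_comm]; omega
      · dsimp only
        have h1 := Nat.div_add_mod (b : ℕ) (2 ^ (G - 1))
        omega
  obtain ⟨g, hg⟩ : ∃ g : Fin m → Fin (2 ^ G), g = fun k => ⟨f k, (hf k k.2).1⟩ := ⟨_, rfl⟩
  have hginj : Function.Injective g := by
    intro k k' h
    rw [hg] at h
    have := congrArg Fin.val h
    dsimp only at this
    ext
    rcases (hf k k.2).2.2 with e | e <;> rcases (hf k' k'.2).2.2 with e' | e' <;> omega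
  have hterm : ∀ k : Fin m, (2 : ℝ) ^ G * (1 / (4 * (((k : ℕ) : ℝ) + 2))) ≤ contrast (g k) b u / 1 := by
    intro k
    rw [div_one, contrast_eq _ _ h0 h1]
    have hmeet : meetN (g k) b ≠ 0 := by
      have h := ((meet_spec (g k) b).2 0 (by omega)).1 (by
        simpa [hg] using (hf k k.2).2.1)
      omega
    rw [if_neg hmeet]
    have hd : |offs (g k) b u| ≤ (((k : ℕ) : ℝ) + 2) / 2 ^ G ∧ 0 < |offs (g k) b u| := by
      rw [offs, abs_div, abs_of_pos hn, hg]
      dsimp only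
      rcases (hf k k.2).2.2 with e | e
      · have e' : ((f k : ℕ) : ℝ) + ((k : ℕ) + 1) = (b : ℕ) := by exact_mod_cast e
        rw [abs_of_pos (by linarith [Nat.cast_nonneg (α := ℝ) (k : ℕ)])]
        exact ⟨div_le_div_of_nonneg_right (by linarith) hn.le,
          div_pos (by linarith [Nat.cast_nonneg (α := ℝ) (k : ℕ)]) hn⟩
      · have e' : ((b : ℕ) : ℝ) + ((k : ℕ) + 1) = (f k : ℕ) := by exact_mod_cast e
        rw [abs_of_neg (by linarith [Nat.cast_nonneg (α := ℝ) (k : ℕ)])]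
        exact ⟨div_le_div_of_nonneg_right (by linarith) hn.le,
          div_pos (by linarith [Nat.cast_nonneg (α := ℝ) (k : ℕ)]) hn⟩
    have h3 : |offs (g k) b u| ≤ 1 / 3 := by
      refine hd.1.trans ?_
      rw [div_le_iff₀ hn]
      have hk2 : ((k : ℕ) : ℝ) + 1 ≤ m := by exact_mod_cast k.2
      have hm4r : (2 : ℝ) ^ G = 4 * m := by exact_mod_cast hm4
      have hm1r : (16 : ℝ) ≤ m := by exact_mod_cast hm1
      linarith
    have hw : |wgt (g k) b u| = |Real.cot (Real.pi * |offs (g k) b u|)| := by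
      rw [wgt]
      rcases abs_choice (offs (g k) b u) with h | h <;> rw [h]
      rw [mul_neg, Real.cot_eq_cos_div_sin, Real.cot_eq_cos_div_sin, Real.cos_neg, Real.sin_neg,
        div_neg, abs_neg]
    rw [hw]
    refine le_trans ?_ (mul_le_mul_of_nonneg_left
      ((cot_ge hd.2 h3).trans (le_abs_self _)) zero_le_two)
    have hπ := Real.pi_pos
    rw [mul_one_div, mul_one_div, div_le_div_iff₀ (by positivity) (mul_pos two_pos (mul_pos hπ hd.2))]
    have := mul_le_mul_of_nonneg_left hd.1 (show (0 : ℝ) ≤ 2 ^ G by positivity)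
    rw [mul_div_assoc', mul_div_cancel_left₀ _ hn.ne'] at this
    nlinarith [Real.pi_lt_four]
  rw [le_div_iff₀ hn]
  have hnn : ∀ a, 0 ≤ contrast a b u := fun a => by
    rw [contrast_eq _ _ h0 h1]; split_ifs <;> positivity
  refine le_trans ?_ ((sum_image (f := fun a => contrast a b u) (g := g) (s := univ)
    hginj.injOn).symm.trans_le (sum_le_sum_of_subset_of_nonneg (subset_univ _) fun a _ _ => hnn a))
  refine le_trans ?_ (sum_le_sum fun k _ => (hterm k).trans (le_of_eq (div_one _)))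
  rw [← mul_sum, mul_comm]
  refine mul_le_mul_of_nonneg_left ?_ hn.le
  have hsm : (hsum (m + 1) - 1) / 4 = ∑ k : Fin m, 1 / (4 * (((k : ℕ) : ℝ) + 2)) := by
    rw [hsum, sum_range_succ', Fin.sum_univ_eq_sum_range (fun k => 1 / (4 * ((k : ℝ) + 2))) m]
    simp only [Nat.cast_zero, zero_add, div_one, add_sub_cancel_right, sum_div]
    refine sum_congr rfl fun k _ => ?_
    rw [div_div]; push_cast; ring_nf
  rw [← hsm]
  have hl : ((G : ℝ) - 2) * Real.log 2 ≤ hsum (m + 1) := by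
    rw [hsum_eq]
    refine le_trans ?_ (log_add_one_le_harmonic _)
    have : ((G - 2 : ℕ) : ℝ) = (G : ℝ) - 2 := by rw [Nat.cast_sub (by omega)]; norm_num
    rw [← this, ← Real.log_pow]
    refine Real.log_le_log (by positivity) ?_
    rw [hm]
    push_cast
    linarith
  have hG' : (20 : ℝ) ≤ G := by exact_mod_cast hG
  nlinarith [Real.log_two_gt_d9]

end

end Vale.Agent.P091.Sqrt
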